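import Vale.Agent.P281.H511.Gen.Hyp

/-!
# P281, project T-V (helper511): prime divisors and analytic sets
-/

set_option linter.all false

open Set Filter Metric Vale.Agent.P281 Vale.Agent.P281.H713 Vale.Agent.P281.H64
open Vale.Agent.P281.H64.Gen (IsAnalyticSet NoExc)
open Vale.Agent.P281.H64.Thin (IsThinSet)
open scoped Topology ContDiff Manifold

noncomputable section

namespace Vale.Agent.P281.H511.Gen

variable {n : ℕ} {X : Type} [TopologicalSpace X] [ChartedSpace (Cm n) X]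

/-- the smooth points of `D` -/
def sm (n : ℕ) {X : Type} [TopologicalSpace X] [ChartedSpace (Cm n) X] (D : Set X) : Set X :=
  {x | x ∈ D ∧ ∃ g, J.IsLocalEq (Cm n) D g x ∧ J.dif (Cm n) g x ≠ 0}

theorem sm_subset (D : Set X) : sm n D ⊆ D := fun _ hx => hx.1

theorem isLocalEq_eventually {D : Set X} {g : X → ℂ} {x : X} (h : J.IsLocalEq (Cm n) D g x) :
    ∀ᶠ z in 𝓝 x, J.IsLocalEq (Cm n) D g z := by
  obtain ⟨V, hV, hx, h1, h2, h3⟩ := h
  filter_upwards [hV.mem_nhds hx] with z hz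
  exact ⟨V, hV, hz, h1, h2, h3⟩

theorem isLocalEq_mem_iff {D : Set X} {g : X → ℂ} {x : X} (h : J.IsLocalEq (Cm n) D g x) :
    ∀ᶠ z in 𝓝 x, z ∈ D ↔ g z = 0 := by
  obtain ⟨V, hV, hx, h1, h2, h3⟩ := h
  filter_upwards [hV.mem_nhds hx] with z hz
  exact h2 z hz

theorem isLocalEq_holAt {D : Set X} {g : X → ℂ} {x : X} (h : J.IsLocalEq (Cm n) D g x) :
    J.HolAt (Cm n) g x := by
  obtain ⟨V, hV, hx, h1, h2, h3⟩ := h
  exact h1 x hx

variable [IsManifold 𝓘(ℂ, Cm n) ω X]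

/-- a local equation is not identically zero -/
theorem isLocalEq_not_zero {D : Set X} {g : X → ℂ} {x : X} (h : J.IsLocalEq (Cm n) D g x) :
    ¬ ∀ᶠ z in 𝓝 x, g z = 0 := by
  intro hcon
  obtain ⟨V, hV, hx, h1, h2, h3⟩ := h
  obtain ⟨W, hW, hWo, hxW⟩ := eventually_nhds_iff.1 hcon
  have h4 := h3 ⟨(h2 x hx).2 (hW x hxW), hx⟩
  obtain ⟨y, hyW, hyD, hy⟩ := mem_closure_iff_nhds.1 h4 W (hWo.mem_nhds hxW)
  apply hy
  have h5 : g =ᶠ[𝓝 y] fun _ => 0 := by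
    filter_upwards [hWo.mem_nhds hyW] with z hz
    exact hW z hz
  show mfderiv 𝓘(ℂ, Cm n) 𝓘(ℂ, ℂ) g y = 0
  rw [h5.mfderiv_eq, mfderiv_const]
  rfl

theorem sm_eventually {D : Set X} {x : X} (hx : x ∈ sm n D) :
    ∀ᶠ y in 𝓝 x, y ∈ D → y ∈ sm n D := by
  obtain ⟨hxD, g, hg, hdg⟩ := hx
  filter_upwards [isLocalEq_eventually hg, eventually_dif_ne (isLocalEq_holAt hg) hdg]
    with y h1 h2 h3
  exact ⟨h3, g, h1, h2⟩

omit [IsManifold 𝓘(ℂ, Cm n) ω X] in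
theorem subset_closure_sm {D : Set X} (hloc : ∀ x, ∃ g, J.IsLocalEq (Cm n) D g x) :
    D ⊆ closure (sm n D) := by
  intro x hx
  obtain ⟨g, V, hV, hxV, h1, h2, h3⟩ := hloc x
  have h4 := h3 ⟨hx, hxV⟩
  rw [mem_closure_iff_nhds] at h4 ⊢
  intro t ht
  obtain ⟨y, ⟨hyt, hyV⟩, hyD, hy⟩ := h4 (t ∩ V) (inter_mem ht (hV.mem_nhds hxV))
  exact ⟨y, hyt, hyD, g, ⟨V, hV, hyV, h1, h2, h3⟩, hy⟩

/-- `{e = 0}` with `de ≠ 0`: reduced local equation -/
theorem isLocalEq_of {D : Set X} {e : X → ℂ} {x : X} (he : J.HolAt (Cm n) e x)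
    (hde : J.dif (Cm n) e x ≠ 0) (hD : ∀ᶠ z in 𝓝 x, z ∈ D ↔ e z = 0) :
    J.IsLocalEq (Cm n) D e x := IsLocalEq.of_dif_ne he hD hde

theorem mem_sm {D : Set X} {e : X → ℂ} {x : X} (he : J.HolAt (Cm n) e x) (he0 : e x = 0)
    (hde : J.dif (Cm n) e x ≠ 0) (hD : ∀ᶠ z in 𝓝 x, z ∈ D ↔ e z = 0) : x ∈ sm n D :=
  ⟨hD.self_of_nhds.2 he0, e, isLocalEq_of he hde hD, hde⟩

omit [IsManifold 𝓘(ℂ, Cm n) ω X] in
theorem isAnalyticSet_isClosed {A : Set X} (hA : IsAnalyticSet (Cm n) A) : IsClosed A := by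
  rw [← isOpen_compl_iff, isOpen_iff_mem_nhds]
  intro x hx
  obtain ⟨U, ι, h, hU, hxU, hh, hA⟩ := hA x
  have h1 : ¬ ∀ i, h i x = 0 := fun h2 => hx ((hA x hxU).2 h2)
  push Not at h1
  obtain ⟨i, hi⟩ := h1
  have h2 : ContinuousAt (h i) x := (show HolV (Cm n) (h i) x from hh i x hxU).continuousAt
  filter_upwards [hU.mem_nhds hxU, h2.eventually_ne hi] with y hyU hy hyA
  exact hy ((hA y hyU).1 hyA i)

/-- **the identity theorem on a prime divisor** -/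
theorem subset_of_eventually {D A : Set X} (hD : J.IsPrime (Cm n) D)
    (hA : IsAnalyticSet (Cm n) A) {x : X} (hx : x ∈ sm n D)
    (h : ∀ᶠ y in 𝓝 x, y ∈ D → y ∈ A) : D ⊆ A := by
  have hcl := isAnalyticSet_isClosed hA
  obtain ⟨hDc, hloc, hne, hpre⟩ := hD
  set W : Set X := {x | ∀ᶠ y in 𝓝 x, y ∈ D → y ∈ A} with hW
  have hWo : IsOpen W := isOpen_iff_mem_nhds.2 fun y hy => eventually_eventually_nhds.2 hy
  have key : ∀ y ∈ sm n D, y ∉ W → ∃ V : Set X, IsOpen V ∧ y ∈ V ∧ ∀ y' ∈ V, y' ∈ D → y' ∉ W := by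
    intro y hy hyW
    obtain ⟨hyD, g, hg, hdg⟩ := hy
    have hg0 : g y = 0 := (isLocalEq_mem_iff hg).self_of_nhds.1 hyD
    obtain ⟨U, ι, h', hU, hyU, hh, hA'⟩ := hA y
    obtain ⟨V, hVN, hVo, hyV, hV⟩ := exists_cell (isLocalEq_holAt hg) hg0 hdg
      (inter_mem (hU.mem_nhds hyU) (isLocalEq_mem_iff hg))
    refine ⟨V, hVo, hyV, fun y' hy'V hy'D hy'W => hyW ?_⟩
    have h1 : ∀ i, ∀ z ∈ V, g z = 0 → h' i z = 0 := by
      intro i
      refine hV (h' i) (fun z hz => hh i z (hVN hz).1) ⟨y', hy'V, (hVN hy'V).2.1 hy'D, ?_⟩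
      filter_upwards [hy'W, hVo.mem_nhds hy'V] with z hz hzV hgz
      exact (hA' z (hVN hzV).1).1 (hz ((hVN hzV).2.2 hgz)) i
    show ∀ᶠ z in 𝓝 y, z ∈ D → z ∈ A
    filter_upwards [hVo.mem_nhds hyV] with z hz hzD
    exact (hA' z (hVN hz).1).2 fun i => h1 i z hz ((hVN hz).2.1 hzD)
  set v : Set X := ⋃₀ {V | IsOpen V ∧ ∀ y' ∈ V, y' ∈ D → y' ∉ W} with hv
  have hvo : IsOpen v := isOpen_sUnion fun V hV => hV.1
  have hsub : sm n D ⊆ W := by
    rcases isPreconnected_iff_subset_of_disjoint.1 hpre W v hWo hvo (fun y hy => by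
      by_cases hyW : y ∈ W
      · exact Or.inl hyW
      · obtain ⟨V, hVo, hyV, hV⟩ := key y hy hyW
        exact Or.inr ⟨V, ⟨hVo, hV⟩, hyV⟩) (by
      ext y
      simp only [mem_inter_iff, mem_empty_iff_false, iff_false]
      rintro ⟨hy, hyW, V, ⟨hVo, hV⟩, hyV⟩
      exact hV y hyV hy.1 hyW) with h1 | h1
    · exact h1
    · obtain ⟨V, ⟨hVo, hV⟩, hxV⟩ := h1 hx
      exact absurd h (hV x hxV hx.1)
  intro y hy
  have h2 : sm n D ⊆ A := fun z hz => (hsub hz).self_of_nhds hz.1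
  exact closure_minimal h2 hcl (subset_closure_sm hloc hy)

/-- a prime divisor not contained in the analytic set `A`: its smooth points outside `A` are dense -/
theorem subset_closure_diff {D A : Set X} (hD : J.IsPrime (Cm n) D)
    (hA : IsAnalyticSet (Cm n) A) (h : ¬ D ⊆ A) : D ⊆ closure (sm n D \ A) := by
  have hcl := isAnalyticSet_isClosed hA
  intro x hx
  have h1 := subset_closure_sm hD.2.1 hx
  rw [mem_closure_iff_nhds] at h1 ⊢
  intro t ht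
  obtain ⟨t', ht', ht'o, hxt'⟩ := mem_nhds_iff.1 ht
  obtain ⟨y, hyt, hy⟩ := h1 t' (ht'o.mem_nhds hxt')
  by_contra hcon
  apply h
  refine subset_of_eventually hD hA hy ?_
  filter_upwards [sm_eventually hy, ht'o.mem_nhds hyt] with z hz hzt hzD
  by_contra hzA
  exact hcon ⟨z, ht' hzt, hz hzD, hzA⟩

omit [IsManifold 𝓘(ℂ, Cm n) ω X] in
/-- a closed set with local equations is analytic -/
theorem isAnalyticSet_of_isLocalEq {D : Set X} (hloc : ∀ x, ∃ g, J.IsLocalEq (Cm n) D g x) :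
    IsAnalyticSet (Cm n) D := by
  intro x
  obtain ⟨g, V, hV, hxV, h1, h2, h3⟩ := hloc x
  exact ⟨V, Unit, fun _ => g, hV, hxV, fun _ z hz => h1 z hz, fun z hz =>
    ⟨fun h _ => (h2 z hz).1 h, fun h => (h2 z hz).2 (h ())⟩⟩

omit [IsManifold 𝓘(ℂ, Cm n) ω X] in
theorem isAnalyticSet_prime {D : Set X} (hD : J.IsPrime (Cm n) D) : IsAnalyticSet (Cm n) D :=
  isAnalyticSet_of_isLocalEq hD.2.1

theorem isAnalyticSet_union {A B : Set X} (hA : IsAnalyticSet (Cm n) A)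
    (hB : IsAnalyticSet (Cm n) B) : IsAnalyticSet (Cm n) (A ∪ B) := by
  intro x
  obtain ⟨U, ι, h, hU, hxU, hh, hA'⟩ := hA x
  obtain ⟨V, κ, k, hV, hxV, hk, hB'⟩ := hB x
  refine ⟨U ∩ V, ι × κ, fun i z => h i.1 z * k i.2 z, hU.inter hV, ⟨hxU, hxV⟩, ?_, ?_⟩
  · intro i z hz
    exact HolV.mul (E := Cm n) (hh i.1 z hz.1) (hk i.2 z hz.2)
  · intro z hz
    rw [mem_union, hA' z hz.1, hB' z hz.2]
    constructor
    · rintro (h1 | h1) i
      · show h i.1 z * k i.2 z = 0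
        rw [h1, zero_mul]
      · show h i.1 z * k i.2 z = 0
        rw [h1, mul_zero]
    · intro h1
      by_contra hcon
      push Not at hcon
      obtain ⟨⟨i, hi⟩, ⟨j, hj⟩⟩ := hcon
      exact mul_ne_zero hi hj (h1 (i, j))

theorem isAnalyticSet_empty : IsAnalyticSet (Cm n) (∅ : Set X) := by
  intro x
  refine ⟨univ, Unit, fun _ _ => 1, isOpen_univ, mem_univ x, fun _ z _ => contMDiffAt_const,
    fun z _ => ?_⟩
  simp

theorem isAnalyticSet_sUnion {𝒜 : Set (Set X)} (hf : 𝒜.Finite)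
    (h : ∀ A ∈ 𝒜, IsAnalyticSet (Cm n) A) : IsAnalyticSet (Cm n) (⋃₀ 𝒜) := by
  induction 𝒜, hf using Set.Finite.induction_on with
  | empty => rw [sUnion_empty]; exact isAnalyticSet_empty
  | insert _ _ ih =>
    rw [sUnion_insert]
    exact isAnalyticSet_union (h _ (mem_insert _ _)) (ih fun A hA => h A (mem_insert_of_mem _ hA))

/-- a prime divisor is irreducible -/
theorem subset_or_subset {D A B : Set X} (hD : J.IsPrime (Cm n) D)
    (hA : IsAnalyticSet (Cm n) A) (hB : IsClosed B) (h : D ⊆ A ∪ B) : D ⊆ A ∨ D ⊆ B := by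
  by_cases h1 : D ⊆ A
  · exact Or.inl h1
  · right
    intro x hx
    refine closure_minimal ?_ hB (subset_closure_diff hD hA h1 hx)
    rintro y ⟨hy, hyA⟩
    exact (h hy.1).resolve_left hyA

theorem exists_subset_of_subset_sUnion {D : Set X} {𝒜 : Set (Set X)} (hD : J.IsPrime (Cm n) D)
    (hf : 𝒜.Finite) (h : ∀ A ∈ 𝒜, IsAnalyticSet (Cm n) A) (hs : D ⊆ ⋃₀ 𝒜) : ∃ A ∈ 𝒜, D ⊆ A := by
  induction 𝒜, hf using Set.Finite.induction_on with
  | empty =>
    rw [sUnion_empty] at hs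
    obtain ⟨x, hx⟩ := hD.2.2.nonempty
    exact absurd (hs hx.1) (notMem_empty x)
  | @insert A 𝒜 _ hfin ih =>
    rw [sUnion_insert] at hs
    have h2 : IsClosed (⋃₀ 𝒜) := isAnalyticSet_isClosed
      (isAnalyticSet_sUnion hfin fun A hA => h A (mem_insert_of_mem _ hA))
    rcases subset_or_subset hD (h A (mem_insert _ _)) h2 hs with h3 | h3
    · exact ⟨A, mem_insert _ _, h3⟩
    · obtain ⟨B, hB, hDB⟩ := ih (fun A hA => h A (mem_insert_of_mem _ hA)) h3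
      exact ⟨B, mem_insert_of_mem _ hB, hDB⟩

/-- **P1**: a prime divisor contained in a prime divisor -/
theorem prime_eq_of_subset {P G : Set X} (hP : J.IsPrime (Cm n) P) (hG : J.IsPrime (Cm n) G)
    (h : P ⊆ G) : P = G := by
  refine Subset.antisymm h ?_
  obtain ⟨x₀, hx₀P, e, he, hde⟩ := hP.2.2.nonempty
  obtain ⟨g, hg⟩ := hG.2.1 x₀
  have heh := isLocalEq_holAt he
  have he0 : e x₀ = 0 := (isLocalEq_mem_iff he).self_of_nhds.1 hx₀P
  obtain ⟨m, w, hw, hev, hw0⟩ := exists_pow_mul heh he0 hde (isLocalEq_holAt hg)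
    (isLocalEq_not_zero hg)
  obtain ⟨y, hy, hy2⟩ := (Filter.not_eventually.1 hw0).and_eventually
    (((hev.and (isLocalEq_mem_iff he)).and (isLocalEq_mem_iff hg)).eventually_nhds.and
      (((eventually_dif_ne heh hde).and (holAt_eventually hw)).and (holAt_eventually heh)))
    |>.exists
  obtain ⟨hy3, ⟨hy4, hy5⟩, hy6⟩ := hy2
  rw [Classical.not_imp] at hy
  have hyP : y ∈ P := hy3.self_of_nhds.1.2.2 hy.1
  have hm : 0 < m := by
    rcases Nat.eq_zero_or_pos m with rfl | hm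
    · exfalso
      have h1 := hy3.self_of_nhds.1.1
      rw [pow_zero, one_mul, hy3.self_of_nhds.2.1 (h hyP)] at h1
      exact hy.2 h1.symm
    · exact hm
  have h7 : ∀ᶠ y' in 𝓝 y, w y' ≠ 0 :=
    (show HolV (Cm n) w y from hy5).continuousAt.eventually_ne hy.2
  have h8 : ∀ᶠ y' in 𝓝 y, (y' ∈ G ↔ e y' = 0) ∧ (y' ∈ P ↔ e y' = 0) := by
    filter_upwards [hy3, h7] with y' h9 h10
    refine ⟨?_, h9.1.2⟩
    rw [h9.2, h9.1.1, mul_eq_zero, or_iff_left h10, pow_eq_zero_iff hm.ne']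
  refine subset_of_eventually hG (isAnalyticSet_prime hP) (x := y)
    (mem_sm hy6 hy.1 hy4 (h8.mono fun _ h => h.1)) ?_
  filter_upwards [h8] with y' h9 h10
  exact h9.2.2 (h9.1.1 h10)

/-- **uniqueness of the reduced local equation** at a smooth point -/
theorem exists_unit {D : Set X} {e g : X → ℂ} {x : X} (he : J.HolAt (Cm n) e x)
    (hex : e x = 0) (hde : J.dif (Cm n) e x ≠ 0) (hDe : ∀ᶠ z in 𝓝 x, z ∈ D ↔ e z = 0)
    (hg : J.IsLocalEq (Cm n) D g x) :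
    ∃ w : X → ℂ, J.HolAt (Cm n) w x ∧ w x ≠ 0 ∧ ∀ᶠ z in 𝓝 x, g z = e z * w z := by
  have h0 : ∀ᶠ z in 𝓝 x, e z = 0 → g z = 0 := by
    filter_upwards [hDe, isLocalEq_mem_iff hg] with z h1 h2 h3
    exact h2.1 (h1.2 h3)
  obtain ⟨w, hw, hev⟩ := exists_factor he hex hde (isLocalEq_holAt hg) h0
  refine ⟨w, hw, fun hwx => ?_, hev⟩
  have h1 : ∀ᶠ z in 𝓝 x, e z = 0 → w z = 0 := by
    refine zero_of_codim he hex hde hw hwx ?_
    filter_upwards [hev, hDe, isLocalEq_mem_iff hg] with z h2 h3 h4 h5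
    rw [← h3, h4, h2, h5, mul_zero]
  -- then `dg = 0` on `D` near `x`
  have h2 : ∀ᶠ z in 𝓝 x, z ∈ D → J.dif (Cm n) g z = 0 := by
    filter_upwards [hev.eventually_nhds, h1, hDe, holAt_eventually he, holAt_eventually hw]
      with z h3 h4 h5 h6 h7 h8
    have h9 : e z = 0 := h5.1 h8
    have h10 : w z = 0 := h4 h9
    have h11 : dV (Cm n) (fun z => e z • w z) z = e z • dV (Cm n) w z +
        (dV (Cm n) e z).smulRight (w z) := dV_smul h6 h7
    have h12 : J.dif (Cm n) g z = dV (Cm n) (fun z => e z • w z) z := by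
      have h13 : g =ᶠ[𝓝 z] fun z => e z • w z := h3
      show mfderiv 𝓘(ℂ, Cm n) 𝓘(ℂ, ℂ) g z = _
      rw [h13.mfderiv_eq]
      rfl
    rw [h12, h11, h9, h10]
    ext v
    simp
  obtain ⟨V, hV, hxV, h3, h4, h5⟩ := hg
  have h6 := h5 ⟨hDe.self_of_nhds.2 hex, hxV⟩
  obtain ⟨y, hy1, hy2, hy3⟩ := mem_closure_iff_nhds.1 h6 _ h2
  exact hy3 (hy1 hy2)

theorem dif_mul_unit {e g w : X → ℂ} {x : X} (he : J.HolAt (Cm n) e x) (hex : e x = 0)
    (hw : J.HolAt (Cm n) w x) (hev : ∀ᶠ z in 𝓝 x, g z = e z * w z) :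
    J.dif (Cm n) g x = w x • J.dif (Cm n) e x := by
  have h11 : dV (Cm n) (fun z => e z • w z) x = e x • dV (Cm n) w x +
      (dV (Cm n) e x).smulRight (w x) := dV_smul he hw
  have h12 : J.dif (Cm n) g x = dV (Cm n) (fun z => e z • w z) x := by
    have h13 : g =ᶠ[𝓝 x] fun z => e z • w z := hev
    show mfderiv 𝓘(ℂ, Cm n) 𝓘(ℂ, ℂ) g x = _
    rw [h13.mfderiv_eq]
    rfl
  rw [h12, h11, hex, zero_smul, zero_add]
  ext v
  show dV (Cm n) e x v • w x = w x • dV (Cm n) e x v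
  rw [smul_eq_mul, smul_eq_mul, mul_comm]

/-- **P4**: at a smooth point, every reduced local equation has a nonzero differential -/
theorem dif_ne_of_mem_sm {D : Set X} {g : X → ℂ} {x : X} (hx : x ∈ sm n D)
    (hg : J.IsLocalEq (Cm n) D g x) : J.dif (Cm n) g x ≠ 0 := by
  obtain ⟨hxD, e, he, hde⟩ := hx
  have hex := (isLocalEq_mem_iff he).self_of_nhds.1 hxD
  obtain ⟨w, hw, hwx, hev⟩ := exists_unit (isLocalEq_holAt he) hex hde (isLocalEq_mem_iff he) hg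
  rw [dif_mul_unit (isLocalEq_holAt he) hex hw hev]
  exact smul_ne_zero hwx hde

/-- **P4**: the singular locus is analytic -/
theorem isAnalyticSet_sing {D : Set X} (hloc : ∀ x, ∃ g, J.IsLocalEq (Cm n) D g x) :
    IsAnalyticSet (Cm n) (D \ sm n D) := by
  intro x
  obtain ⟨g, hg⟩ := hloc x
  obtain ⟨V, hV, hxV, h1, h2, h3⟩ := hg
  set φ := chartAt (Cm n) x with hφ
  have hxs : x ∈ φ.source := mem_chart_source _ x
  set dg : Fin n → X → ℂ := fun i z => fderiv ℂ (g ∘ φ.symm) (φ z) (Pi.single i 1) with hdg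
  refine ⟨V ∩ φ.source, Option (Fin n), fun o => o.elim g dg, hV.inter φ.open_source, ⟨hxV, hxs⟩,
    ?_, ?_⟩
  · rintro (_ | i) z ⟨hzV, hzs⟩
    · exact h1 z hzV
    · show J.HolAt (Cm n) (dg i) z
      rw [holAt_iff_chart hzs]
      have h4 := ((holAt_iff_chart hzs).1 (h1 z hzV)).fderiv
      have h5 : AnalyticAt ℂ (fun w => fderiv ℂ (g ∘ φ.symm) w (Pi.single i 1)) (φ z) :=
        ((ContinuousLinearMap.apply ℂ ℂ (Pi.single i 1 : Fin n → ℂ)).analyticAt _).comp h4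
      refine h5.congr ?_
      filter_upwards [φ.open_target.mem_nhds (φ.map_source hzs)] with w hw
      show _ = fderiv ℂ (g ∘ φ.symm) (φ (φ.symm w)) (Pi.single i 1)
      rw [φ.right_inv hw]
  · rintro z ⟨hzV, hzs⟩
    have hgz : J.IsLocalEq (Cm n) D g z := ⟨V, hV, hzV, h1, h2, h3⟩
    have h6 : J.dif (Cm n) g z ≠ 0 ↔ ∃ i, dg i z ≠ 0 := by
      rw [dif_ne_iff_chart hzs (h1 z hzV)]
      constructor
      · intro h7
        by_contra hcon
        push Not at hcon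
        apply h7
        ext v
        rw [show v = ∑ i, v i • (Pi.single i 1 : Fin n → ℂ) from by
          funext j
          simp [Finset.sum_apply, Pi.single_apply], map_sum]
        refine (Finset.sum_eq_zero fun i _ => ?_)
        rw [map_smul]
        have h8 : fderiv ℂ (g ∘ φ.symm) (φ z) (Pi.single i 1) = 0 := hcon i
        rw [h8, smul_zero]
      · rintro ⟨i, hi⟩ h7
        apply hi
        show fderiv ℂ (g ∘ φ.symm) (φ z) (Pi.single i 1) = 0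
        rw [h7]
        rfl
    constructor
    · rintro ⟨hzD, hzsm⟩ (_ | i)
      · exact (h2 z hzV).1 hzD
      · show dg i z = 0
        by_contra hcon
        exact hzsm ⟨hzD, g, hgz, h6.2 ⟨i, hcon⟩⟩
    · intro h7
      have hzD : z ∈ D := (h2 z hzV).2 (h7 none)
      refine ⟨hzD, fun hzsm => ?_⟩
      obtain ⟨i, hi⟩ := h6.1 (dif_ne_of_mem_sm hzsm hgz)
      exact hi (h7 (some i))

theorem not_subset_sing {D : Set X} (hD : J.IsPrime (Cm n) D) : ¬ D ⊆ D \ sm n D := by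
  intro h
  obtain ⟨x, hx⟩ := hD.2.2.nonempty
  exact (h hx.1).2 hx

/-- a prime divisor is not contained in finitely many other prime divisors and in its singular
locus -/
theorem not_subset_sing_union {D : Set X} {𝒢 : Set (Set X)} (hD : J.IsPrime (Cm n) D)
    (hf : 𝒢.Finite) (h𝒢 : ∀ G ∈ 𝒢, J.IsPrime (Cm n) G ∧ G ≠ D) :
    ¬ D ⊆ (D \ sm n D) ∪ ⋃₀ 𝒢 := by
  intro h
  rcases subset_or_subset hD (isAnalyticSet_sing hD.2.1) (isAnalyticSet_isClosed
    (isAnalyticSet_sUnion hf fun G hG => isAnalyticSet_prime (h𝒢 G hG).1)) h with h1 | h1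
  · exact not_subset_sing hD h1
  · obtain ⟨G, hG, hDG⟩ := exists_subset_of_subset_sUnion hD hf
      (fun G hG => isAnalyticSet_prime (h𝒢 G hG).1) h1
    exact (h𝒢 G hG).2 (prime_eq_of_subset hD (h𝒢 G hG).1 hDG).symm

/-- analytic subsets of a connected manifold are thin -/
theorem isThinSet_of_analytic [PreconnectedSpace X] {A : Set X} (hA : IsAnalyticSet (Cm n) A)
    (h : A ≠ univ) : IsThinSet (Cm n) A := by
  refine ⟨isAnalyticSet_isClosed hA, ?_⟩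
  have hcl := isAnalyticSet_isClosed hA
  -- `A` contains a neighbourhood of no point
  have key : ∀ x, ∃ V : Set X, IsOpen V ∧ x ∈ V ∧ ∃ (U : Set X) (ι : Type) (h : ι → X → ℂ),
      V ⊆ U ∧ IsOpen U ∧ (∀ i, ∀ z ∈ U, J.HolAt (Cm n) (h i) z) ∧ (∀ z ∈ U, z ∈ A ↔ ∀ i, h i z = 0) ∧
      ∀ i, (∃ x' ∈ V, ∀ᶠ z in 𝓝 x', h i z = 0) → ∀ z ∈ V, h i z = 0 := by
    intro x
    obtain ⟨U, ι, k, hU, hxU, hk, hA'⟩ := hA x
    set φ := chartAt (Cm n) x with hφ
    have hxs : x ∈ φ.source := mem_chart_source _ x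
    have h4 : φ.target ∩ φ.symm ⁻¹' U ∈ 𝓝 (φ x) := by
      refine inter_mem (φ.open_target.mem_nhds (φ.map_source hxs)) ?_
      refine (φ.continuousAt_symm (φ.map_source hxs)) (hU.mem_nhds ?_)
      rwa [φ.left_inv hxs]
    obtain ⟨r, hr, hb⟩ := Metric.mem_nhds_iff.1 h4
    refine ⟨φ.source ∩ φ ⁻¹' ball (φ x) r, φ.isOpen_inter_preimage isOpen_ball,
      ⟨hxs, mem_ball_self hr⟩, U, ι, k, ?_, hU, hk, hA', ?_⟩
    · rintro z ⟨hz1, hz2⟩
      have h5 := (hb hz2).2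
      rwa [mem_preimage, φ.left_inv hz1] at h5
    · rintro i ⟨x', ⟨hx'1, hx'2⟩, hx'⟩ z ⟨hz1, hz2⟩
      have h5 : AnalyticOnNhd ℂ (k i ∘ φ.symm) (ball (φ x) r) := by
        intro w hw
        have h6 := (holAt_iff_chart (x₀ := x) (φ.map_target (hb hw).1)).1 (hk i _ (hb hw).2)
        rwa [← hφ, φ.right_inv (hb hw).1] at h6
      have h7 : (k i ∘ φ.symm) =ᶠ[𝓝 (φ x')] 0 := by
        have h8 : Tendsto φ.symm (𝓝 (φ x')) (𝓝 x') := by
          have := (φ.continuousAt_symm (φ.map_source hx'1)).tendsto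
          rwa [φ.left_inv hx'1] at this
        filter_upwards [h8.eventually hx'] with w hw
        exact hw
      have h9 := h5.eqOn_zero_of_preconnected_of_eventuallyEq_zero
        (convex_ball _ _).isPreconnected hx'2 h7 hz2
      rwa [Function.comp_apply, φ.left_inv hz1] at h9
  set W : Set X := {x | ∀ᶠ y in 𝓝 x, y ∈ A} with hW
  have hWo : IsOpen W := isOpen_iff_mem_nhds.2 fun y hy => eventually_eventually_nhds.2 hy
  have hcW : IsClosed W := by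
    refine isClosed_of_closure_subset fun x hx => ?_
    obtain ⟨V, hVo, hxV, U, ι, k, hVU, hU, hk, hA', hV⟩ := key x
    obtain ⟨x', hx'V, hx'⟩ := mem_closure_iff_nhds.1 hx V (hVo.mem_nhds hxV)
    show ∀ᶠ y in 𝓝 x, y ∈ A
    filter_upwards [hVo.mem_nhds hxV] with y hy
    rw [hA' y (hVU hy)]
    intro i
    refine hV i ⟨x', hx'V, ?_⟩ y hy
    filter_upwards [hx', hVo.mem_nhds hx'V] with z hz hzV
    exact (hA' z (hVU hzV)).1 hz i
  have hWe : W = ∅ := by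
    rcases isClopen_iff.1 ⟨hcW, hWo⟩ with h1 | h1
    · exact h1
    · exfalso
      apply h
      rw [eq_univ_iff_forall]
      intro x
      have h2 : x ∈ W := by rw [h1]; exact mem_univ x
      exact h2.self_of_nhds
  intro x
  obtain ⟨V, hVo, hxV, U, ι, k, hVU, hU, hk, hA', hV⟩ := key x
  have h1 : ∃ i, ¬ ∀ᶠ z in 𝓝 x, k i z = 0 := by
    by_contra hcon
    push Not at hcon
    have h2 : x ∈ W := by
      show ∀ᶠ y in 𝓝 x, y ∈ A
      filter_upwards [hVo.mem_nhds hxV] with y hy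
      rw [hA' y (hVU hy)]
      intro i
      exact hV i ⟨x, hxV, hcon i⟩ y hy
    rw [hWe] at h2
    exact h2
  obtain ⟨i, hi⟩ := h1
  refine ⟨k i, hk i x (hVU hxV), hi, ?_⟩
  filter_upwards [hVo.mem_nhds hxV] with z hz hzA
  exact (hA' z (hVU hz)).1 hzA i

section
variable {p : ℕ} {Y : Type} [TopologicalSpace Y] [ChartedSpace (Cm p) Y]
  [IsManifold 𝓘(ℂ, Cm p) ω Y] {f : X → Y}

omit [IsManifold 𝓘(ℂ, Cm n) ω X] [IsManifold 𝓘(ℂ, Cm p) ω Y] in
theorem isAnalyticSet_preimage (hf : ContMDiff 𝓘(ℂ, Cm n) 𝓘(ℂ, Cm p) ω f) {A : Set Y}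
    (hA : IsAnalyticSet (Cm p) A) : IsAnalyticSet (Cm n) (f ⁻¹' A) := by
  intro x
  obtain ⟨U, ι, h, hU, hxU, hh, hA'⟩ := hA (f x)
  exact ⟨f ⁻¹' U, ι, fun i z => h i (f z), hU.preimage hf.continuous, hxU,
    fun i z hz => ContMDiffAt.comp z (hh i (f z) hz) (hf z), fun z hz => hA' (f z) hz⟩

/-- **P5**: the inverse image of a hypersurface -/
theorem isHyp_preimage (hf : ContMDiff 𝓘(ℂ, Cm n) 𝓘(ℂ, Cm p) ω f) {G : Set Y}
    (hloc : ∀ y, ∃ g, J.IsLocalEq (Cm p) G g y) (hG : ∀ x, ¬ ∀ᶠ z in 𝓝 x, f z ∈ G) (x : X) :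
    ∃ g : X → ℂ, J.HolAt (Cm n) g x ∧ (¬ ∀ᶠ z in 𝓝 x, g z = 0) ∧
      ∀ᶠ z in 𝓝 x, z ∈ f ⁻¹' G ↔ g z = 0 := by
  obtain ⟨g, hg⟩ := hloc (f x)
  have h1 : ∀ᶠ z in 𝓝 x, z ∈ f ⁻¹' G ↔ g (f z) = 0 :=
    hf.continuous.continuousAt.eventually (isLocalEq_mem_iff hg)
  refine ⟨fun z => g (f z), ContMDiffAt.comp x (isLocalEq_holAt hg) (hf x), fun hcon => ?_, h1⟩
  apply hG x
  filter_upwards [hcon, h1] with z h2 h3
  exact h3.2 h2

/-- near a point where `f` is submersive, `f⁻¹(G)` is not everything -/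
theorem not_eventually_preimage [PreconnectedSpace X]
    (hf : ContMDiff 𝓘(ℂ, Cm n) 𝓘(ℂ, Cm p) ω f) {G : Set Y}
    (hloc : ∀ y, ∃ g, J.IsLocalEq (Cm p) G g y) (hne : ∃ x, f x ∉ G) (x : X) :
    ¬ ∀ᶠ z in 𝓝 x, f z ∈ G := by
  have hA := isAnalyticSet_preimage hf (isAnalyticSet_of_isLocalEq hloc)
  obtain ⟨x₀, hx₀⟩ := hne
  have h1 := isThinSet_of_analytic hA (fun h => hx₀ (by
    have h2 : x₀ ∈ f ⁻¹' G := by rw [h]; exact mem_univ x₀
    exact h2))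
  obtain ⟨g, hg, hg0, hG⟩ := h1.2 x
  intro hcon
  apply hg0
  filter_upwards [hcon, hG] with z h2 h3
  exact h3 h2

end

end Vale.Agent.P281.H511.Gen
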