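import Vale.Agent.P281.H511.Gen.Local
import Vale.Agent.P281.H511.Loc
import Vale.Agent.P281.H64.Gen.Spec

/-!
# P281, project T-V (helper511): local theory of hypersurfaces of a manifold
-/

set_option linter.all false

open Set Filter Metric Vale.Agent.P281 Vale.Agent.P281.H713 Vale.Agent.P281.H64
open scoped Topology ContDiff Manifold

noncomputable section

namespace Vale.Agent.P281.H511.Gen

variable {n : ℕ} {X : Type} [TopologicalSpace X] [ChartedSpace (Cm n) X]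
  [IsManifold 𝓘(ℂ, Cm n) ω X]

theorem holAt_iff_chart {h : X → ℂ} {x₀ x : X} (hx : x ∈ (chartAt (Cm n) x₀).source) :
    J.HolAt (Cm n) h x ↔ AnalyticAt ℂ (h ∘ (chartAt (Cm n) x₀).symm) (chartAt (Cm n) x₀ x) := by
  constructor
  · intro hh
    exact (HolV.rep hx (hh : HolV (Cm n) h x)).analyticAt
  · intro hh
    exact HolV.of_rep hx hh.contDiffAt

theorem dif_ne_iff_chart {h : X → ℂ} {x₀ x : X} (hx : x ∈ (chartAt (Cm n) x₀).source)
    (hh : J.HolAt (Cm n) h x) : J.dif (Cm n) h x ≠ 0 ↔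
      fderiv ℂ (h ∘ (chartAt (Cm n) x₀).symm) (chartAt (Cm n) x₀ x) ≠ 0 := by
  have h1 : J.dif (Cm n) h x =
      (fderiv ℂ (h ∘ (chartAt (Cm n) x₀).symm) (chartAt (Cm n) x₀ x)).comp
      (dV (Cm n) (chartAt (Cm n) x₀ : X → Cm n) x) := dV_eq_chart hx hh
  have hj : jac (Cm n) (chartAt (Cm n) x₀ : X → Cm n) x ≠ 0 := jac_chart_ne_zero hx
  have hs : Function.Surjective (dV (Cm n) (chartAt (Cm n) x₀ : X → Cm n) x) := by
    have h2 : IsUnit ((dV (Cm n) (chartAt (Cm n) x₀ : X → Cm n) x : Cm n →ₗ[ℂ] Cm n)) := by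
      rw [LinearMap.isUnit_iff_isUnit_det]
      exact isUnit_iff_ne_zero.2 hj
    exact ((Module.End.isUnit_iff _).1 h2).2
  rw [h1]
  constructor
  · intro h2 h3
    apply h2
    rw [h3, ContinuousLinearMap.zero_comp]
  · intro h2 h3
    apply h2
    ext v
    obtain ⟨u, hu⟩ := hs v
    have h4 := congrArg (fun L : Cm n →L[ℂ] ℂ => L u) h3
    have h5 : fderiv ℂ (h ∘ (chartAt (Cm n) x₀).symm) (chartAt (Cm n) x₀ x)
      (dV (Cm n) (chartAt (Cm n) x₀ : X → Cm n) x u) = 0 := h4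
    rw [hu] at h5
    exact h5

/-- coordinates whose coordinate `σ` is the function `e` -/
theorem exists_coord {z : X} {e : X → ℂ} (he : J.HolAt (Cm n) e z) (hde : J.dif (Cm n) e z ≠ 0) :
    ∃ (σ : Fin n) (Ψ : OpenPartialHomeomorph X (Cm n)), z ∈ Ψ.source ∧
      (∀ x ∈ Ψ.source, Ψ x σ = e x) ∧
      ∀ x ∈ Ψ.source, ∀ h : X → ℂ, J.HolAt (Cm n) h x ↔ AnalyticAt ℂ (h ∘ Ψ.symm) (Ψ x) := by
  set φ := chartAt (Cm n) z with hφ
  have hz : z ∈ φ.source := mem_chart_source _ z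
  obtain ⟨σ, Φ, hΦz, hΦσ, hΦa, hΦs⟩ := straighten ((holAt_iff_chart hz).1 he)
    ((dif_ne_iff_chart hz he).1 hde)
  set U : Set (Cm n) := {w | w ∈ Φ.source ∧ AnalyticAt ℂ Φ w ∧ AnalyticAt ℂ Φ.symm (Φ w)} with hU
  have hUo : IsOpen U := by
    rw [isOpen_iff_mem_nhds]
    rintro w ⟨h1, h2, h3⟩
    filter_upwards [Φ.open_source.mem_nhds h1, h2.eventually_analyticAt,
      (Φ.continuousAt h1).eventually h3.eventually_analyticAt] with w' h1' h2' h3'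
    exact ⟨h1', h2', h3'⟩
  set Ψ := φ.trans (Φ.restrOpen U hUo) with hΨ
  have hsrc : ∀ x, x ∈ Ψ.source ↔ x ∈ φ.source ∧ φ x ∈ U := by
    intro x
    rw [hΨ, OpenPartialHomeomorph.trans_source, OpenPartialHomeomorph.restrOpen_source]
    constructor
    · rintro ⟨h1, h2, h3⟩
      exact ⟨h1, h3⟩
    · rintro ⟨h1, h2⟩
      exact ⟨h1, h2.1, h2⟩
  refine ⟨σ, Ψ, (hsrc z).2 ⟨hz, hΦz, hΦa, hΦs⟩, fun x hx => ?_, fun x hx h => ?_⟩
  · show Φ (φ x) σ = e x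
    rw [hΦσ]
    show e (φ.symm (φ x)) = e x
    rw [φ.left_inv ((hsrc x).1 hx).1]
  · obtain ⟨hx1, hx2, hx3, hx4⟩ := (hsrc x).1 hx
    rw [holAt_iff_chart hx1]
    have e1 : h ∘ Ψ.symm = (h ∘ φ.symm) ∘ Φ.symm := rfl
    have e2 : Ψ x = Φ (φ x) := rfl
    rw [e1, e2]
    constructor
    · intro h1
      exact AnalyticAt.comp_of_eq h1 hx4 (Φ.left_inv hx2)
    · intro h1
      have h2 : AnalyticAt ℂ (((h ∘ φ.symm) ∘ Φ.symm) ∘ Φ) (φ x) := h1.comp hx3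
      refine h2.congr ?_
      filter_upwards [Φ.open_source.mem_nhds hx2] with w hw
      show (h ∘ φ.symm) (Φ.symm (Φ w)) = _
      rw [Φ.left_inv hw]

/-- the local identity theorem on a smooth hypersurface -/
theorem exists_cell {z : X} {e : X → ℂ} (he : J.HolAt (Cm n) e z) (he0 : e z = 0)
    (hde : J.dif (Cm n) e z ≠ 0) {N : Set X} (hN : N ∈ 𝓝 z) :
    ∃ V, V ⊆ N ∧ IsOpen V ∧ z ∈ V ∧ ∀ h : X → ℂ, (∀ x ∈ V, J.HolAt (Cm n) h x) →
      (∃ x' ∈ V, e x' = 0 ∧ ∀ᶠ x in 𝓝 x', e x = 0 → h x = 0) → ∀ x ∈ V, e x = 0 → h x = 0 := by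
  obtain ⟨σ, Ψ, hz, hσ, hΨ⟩ := exists_coord he hde
  have h0 : Ψ z σ = 0 := (hσ z hz).trans he0
  have h1 : Ψ.target ∩ Ψ.symm ⁻¹' N ∈ 𝓝 (Ψ z) := by
    refine inter_mem (Ψ.open_target.mem_nhds (Ψ.map_source hz)) ?_
    have h2 := Ψ.continuousAt_symm (Ψ.map_source hz)
    refine h2 ?_
    rwa [Ψ.left_inv hz]
  obtain ⟨r, hr, hb⟩ := Metric.mem_nhds_iff.1 h1
  refine ⟨Ψ.source ∩ Ψ ⁻¹' ball (Ψ z) r, ?_, Ψ.isOpen_inter_preimage isOpen_ball,
    ⟨hz, mem_ball_self hr⟩, ?_⟩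
  · rintro x ⟨hx1, hx2⟩
    have h2 := (hb hx2).2
    rw [mem_preimage, Ψ.left_inv hx1] at h2
    exact h2
  · intro h hh ⟨x', hx', hex', hev⟩ x hx hex
    have hmem : ∀ v ∈ ball (Ψ z) r, Ψ.symm v ∈ Ψ.source ∩ Ψ ⁻¹' ball (Ψ z) r := by
      intro v hv
      refine ⟨Ψ.map_target (hb hv).1, ?_⟩
      rw [mem_preimage, Ψ.right_inv (hb hv).1]
      exact hv
    have h2 : ∀ v ∈ ball (Ψ z) r, AnalyticAt ℂ (h ∘ Ψ.symm) v := by
      intro v hv
      have h3 := (hΨ _ (hmem v hv).1 h).1 (hh _ (hmem v hv))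
      rwa [Ψ.right_inv (hb hv).1] at h3
    have h3 := slice_identity h0 h2 (v₁ := Ψ x') hx'.2 ((hσ x' hx'.1).trans hex') (by
      have h4 : Tendsto Ψ.symm (𝓝 (Ψ x')) (𝓝 x') := by
        have := (Ψ.continuousAt_symm (Ψ.map_source hx'.1)).tendsto
        rwa [Ψ.left_inv hx'.1] at this
      filter_upwards [h4.eventually hev, Ψ.open_target.mem_nhds (Ψ.map_source hx'.1)]
        with v hv hvt hv0
      refine hv ?_
      rw [← hσ _ (Ψ.map_target hvt), Ψ.right_inv hvt]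
      exact hv0) (Ψ x) hx.2 ((hσ x hx.1).trans hex)
    simpa [Ψ.left_inv hx.1] using h3

/-- division by a function with nonzero differential -/
theorem exists_factor {z : X} {e : X → ℂ} (he : J.HolAt (Cm n) e z) (he0 : e z = 0)
    (hde : J.dif (Cm n) e z ≠ 0) {h : X → ℂ} (hh : J.HolAt (Cm n) h z)
    (h0 : ∀ᶠ x in 𝓝 z, e x = 0 → h x = 0) :
    ∃ w : X → ℂ, J.HolAt (Cm n) w z ∧ ∀ᶠ x in 𝓝 z, h x = e x * w x := by
  obtain ⟨σ, Ψ, hz, hσ, hΨ⟩ := exists_coord he hde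
  have h1 : Ψ z σ = 0 := (hσ z hz).trans he0
  have h4 : Tendsto Ψ.symm (𝓝 (Ψ z)) (𝓝 z) := by
    have := (Ψ.continuousAt_symm (Ψ.map_source hz)).tendsto
    rwa [Ψ.left_inv hz] at this
  obtain ⟨w, hw, hwe⟩ := div_coord h1 ((hΨ z hz h).1 hh) (by
    filter_upwards [h4.eventually h0, Ψ.open_target.mem_nhds (Ψ.map_source hz)] with v hv hvt hv0
    refine hv ?_
    rw [← hσ _ (Ψ.map_target hvt), Ψ.right_inv hvt]
    exact hv0)
  refine ⟨w ∘ Ψ, (hΨ z hz _).2 ?_, ?_⟩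
  · refine hw.congr ?_
    filter_upwards [Ψ.open_target.mem_nhds (Ψ.map_source hz)] with v hv
    show w v = w (Ψ (Ψ.symm v))
    rw [Ψ.right_inv hv]
  · filter_upwards [(Ψ.continuousAt hz).eventually hwe, Ψ.open_source.mem_nhds hz] with x hx hxs
    rw [Function.comp_apply, Ψ.left_inv hxs, hσ x hxs] at hx
    exact hx

/-- pure codimension one -/
theorem zero_of_codim {z : X} {e : X → ℂ} (he : J.HolAt (Cm n) e z) (he0 : e z = 0)
    (hde : J.dif (Cm n) e z ≠ 0) {w : X → ℂ} (hw : J.HolAt (Cm n) w z) (hw0 : w z = 0)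
    (hs : ∀ᶠ x in 𝓝 z, w x = 0 → e x = 0) : ∀ᶠ x in 𝓝 z, e x = 0 → w x = 0 := by
  obtain ⟨σ, Ψ, hz, hσ, hΨ⟩ := exists_coord he hde
  have h1 : Ψ z σ = 0 := (hσ z hz).trans he0
  have h4 : Tendsto Ψ.symm (𝓝 (Ψ z)) (𝓝 z) := by
    have := (Ψ.continuousAt_symm (Ψ.map_source hz)).tendsto
    rwa [Ψ.left_inv hz] at this
  have h2 := slice_zero h1 ((hΨ z hz w).1 hw) (by
    rw [Function.comp_apply, Ψ.left_inv hz]
    exact hw0) (by
    filter_upwards [h4.eventually hs, Ψ.open_target.mem_nhds (Ψ.map_source hz)] with v hv hvt hv0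
    have h5 := hv hv0
    rw [← hσ _ (Ψ.map_target hvt), Ψ.right_inv hvt] at h5
    exact h5)
  filter_upwards [(Ψ.continuousAt hz).eventually h2, Ψ.open_source.mem_nhds hz] with x hx hxs hex
  rw [hσ x hxs, Function.comp_apply, Ψ.left_inv hxs] at hx
  exact hx hex

/-- the order of vanishing along a smooth hypersurface -/
theorem exists_pow_mul {z : X} {e : X → ℂ} (he : J.HolAt (Cm n) e z) (he0 : e z = 0)
    (hde : J.dif (Cm n) e z ≠ 0) {h : X → ℂ} (hh : J.HolAt (Cm n) h z)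
    (h0 : ¬ ∀ᶠ x in 𝓝 z, h x = 0) :
    ∃ (m : ℕ) (w : X → ℂ), J.HolAt (Cm n) w z ∧ (∀ᶠ x in 𝓝 z, h x = e x ^ m * w x) ∧
      ¬ ∀ᶠ x in 𝓝 z, e x = 0 → w x = 0 := by
  classical
  set φ := chartAt (Cm n) z with hφ
  have hz : z ∈ φ.source := mem_chart_source _ z
  have h4 : Tendsto φ.symm (𝓝 (φ z)) (𝓝 z) := by
    have := (φ.continuousAt_symm (φ.map_source hz)).tendsto
    rwa [φ.left_inv hz] at this
  have h1 : ¬ ∀ᶠ v in 𝓝 (φ z), (h ∘ φ.symm) v = 0 := by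
    intro hcon
    apply h0
    filter_upwards [(φ.continuousAt hz).eventually hcon, φ.open_source.mem_nhds hz] with x hx hxs
    rwa [Function.comp_apply, φ.left_inv hxs] at hx
  obtain ⟨M, hM⟩ := pow_bound ((holAt_iff_chart hz).1 hh) h1 ((holAt_iff_chart hz).1 he) (by
    show e (φ.symm (φ z)) = 0
    rw [φ.left_inv hz]
    exact he0)
  have hM' : ∀ (m : ℕ) (w : X → ℂ), J.HolAt (Cm n) w z →
      (∀ᶠ x in 𝓝 z, h x = e x ^ m * w x) → m ≤ M := by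
    intro m w hw hev
    refine hM m (w ∘ φ.symm) ((holAt_iff_chart hz).1 hw) ?_
    filter_upwards [h4.eventually hev] with v hv
    exact hv
  have hex : ∃ m : ℕ, ¬ ∃ w : X → ℂ, J.HolAt (Cm n) w z ∧ ∀ᶠ x in 𝓝 z, h x = e x ^ m * w x := by
    refine ⟨M + 1, ?_⟩
    rintro ⟨w, hw, hev⟩
    have := hM' _ w hw hev
    omega
  have hfind := Nat.find_spec hex
  have hmin : ∀ m < Nat.find hex, ∃ w : X → ℂ, J.HolAt (Cm n) w z ∧
      ∀ᶠ x in 𝓝 z, h x = e x ^ m * w x := fun m hm => not_not.1 (Nat.find_min hex hm)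
  have hpos : 0 < Nat.find hex := by
    rw [Nat.find_pos]
    refine not_not.2 ⟨h, hh, Eventually.of_forall fun x => ?_⟩
    rw [pow_zero, one_mul]
  obtain ⟨m, hm⟩ : ∃ m, Nat.find hex = m + 1 := ⟨Nat.find hex - 1, by omega⟩
  obtain ⟨w, hw, hev⟩ := hmin m (by omega)
  refine ⟨m, w, hw, hev, fun hcon => hfind ?_⟩
  obtain ⟨w', hw', hev'⟩ := exists_factor he he0 hde hw hcon
  refine ⟨w', hw', ?_⟩
  rw [hm]
  filter_upwards [hev, hev'] with x h1 h2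
  rw [h1, h2, pow_succ, mul_assoc]

/-- the order is at least one if `h = 0` is contained in `e = 0` -/
theorem pos_of_subset {z : X} {e : X → ℂ} (he : J.HolAt (Cm n) e z) (he0 : e z = 0)
    (hde : J.dif (Cm n) e z ≠ 0) {h : X → ℂ} (hh : J.HolAt (Cm n) h z) (hh0 : h z = 0)
    (hs : ∀ᶠ x in 𝓝 z, h x = 0 → e x = 0) {m : ℕ} {w : X → ℂ} (hw : J.HolAt (Cm n) w z)
    (hev : ∀ᶠ x in 𝓝 z, h x = e x ^ m * w x) (hw0 : ¬ ∀ᶠ x in 𝓝 z, e x = 0 → w x = 0) :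
    0 < m := by
  rcases Nat.eq_zero_or_pos m with rfl | hm
  · exfalso
    apply hw0
    have h1 : ∀ᶠ x in 𝓝 z, h x = w x := by
      filter_upwards [hev] with x hx
      rw [hx, pow_zero, one_mul]
    refine zero_of_codim he he0 hde hw (h1.self_of_nhds ▸ hh0) ?_
    filter_upwards [h1, hs] with x h2 h3 h4
    exact h3 (h2.trans h4)
  · exact hm

/-- the differential is nonzero nearby -/
theorem eventually_dif_ne {z : X} {e : X → ℂ} (he : J.HolAt (Cm n) e z)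
    (hde : J.dif (Cm n) e z ≠ 0) : ∀ᶠ x in 𝓝 z, J.dif (Cm n) e x ≠ 0 := by
  set φ := chartAt (Cm n) z with hφ
  have hz : z ∈ φ.source := mem_chart_source _ z
  have h1 := (holAt_iff_chart hz).1 he
  have h2 : ContinuousAt (fun x => fderiv ℂ (e ∘ φ.symm) (φ x)) z :=
    ContinuousAt.comp (g := fderiv ℂ (e ∘ φ.symm)) h1.fderiv.continuousAt (φ.continuousAt hz)
  filter_upwards [h2.eventually_ne ((dif_ne_iff_chart hz he).1 hde),
    (show HolV (Cm n) e z from he).eventually, φ.open_source.mem_nhds hz] with x h3 h4 h5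
  exact (dif_ne_iff_chart h5 h4).2 h3

theorem holAt_eventually {z : X} {e : X → ℂ} (he : J.HolAt (Cm n) e z) :
    ∀ᶠ x in 𝓝 z, J.HolAt (Cm n) e x := (show HolV (Cm n) e z from he).eventually

/-- **P2**: the points where a hypersurface (not reduced) is smooth are dense in it -/
theorem exists_smooth {D : Set X} {z : X} {g : X → ℂ} (hg : J.HolAt (Cm n) g z)
    (hg0 : ¬ ∀ᶠ x in 𝓝 z, g x = 0) (hD : ∀ᶠ x in 𝓝 z, x ∈ D ↔ g x = 0) (hz : z ∈ D)
    {N : Set X} (hN : N ∈ 𝓝 z) :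
    ∃ x ∈ N, ∃ e : X → ℂ, J.HolAt (Cm n) e x ∧ e x = 0 ∧ J.dif (Cm n) e x ≠ 0 ∧
      ∀ᶠ y in 𝓝 x, y ∈ D ↔ e y = 0 := by
  classical
  set φ := chartAt (Cm n) z with hφ
  have hzs : z ∈ φ.source := mem_chart_source _ z
  have h4 : Tendsto φ.symm (𝓝 (φ z)) (𝓝 z) := by
    have := (φ.continuousAt_symm (φ.map_source hzs)).tendsto
    rwa [φ.left_inv hzs] at this
  have h1 : ¬ ∀ᶠ v in 𝓝 (φ z), (g ∘ φ.symm) v = 0 := by
    intro hcon
    apply hg0
    filter_upwards [(φ.continuousAt hzs).eventually hcon, φ.open_source.mem_nhds hzs] with x hx hxs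
    rwa [Function.comp_apply, φ.left_inv hxs] at hx
  obtain ⟨v, k₀, hk₀⟩ := exists_dir_ne ((holAt_iff_chart hzs).1 hg) h1
  -- a neighbourhood on which everything is fine
  obtain ⟨W, hW, hWo, hzW⟩ := eventually_nhds_iff.1
    (((holAt_eventually hg).and hD).and ((Filter.Eventually.and hN (φ.open_source.mem_nhds hzs))))
  have hex : ∃ k : ℕ, ∃ x ∈ W, x ∈ D ∧ dir v (g ∘ φ.symm) k (φ x) ≠ 0 := ⟨k₀, z, hzW, hz, hk₀⟩
  obtain ⟨x, hxW, hxD, hxk⟩ := Nat.find_spec hex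
  have hmin : ∀ m < Nat.find hex, ∀ y ∈ W, y ∈ D → dir v (g ∘ φ.symm) m (φ y) = 0 := by
    intro m hm y hy hyD
    by_contra hcon
    exact Nat.find_min hex hm ⟨y, hy, hyD, hcon⟩
  have hgx : ∀ y ∈ W, AnalyticAt ℂ (g ∘ φ.symm) (φ y) := fun y hy =>
    (holAt_iff_chart (hW y hy).2.2).1 (hW y hy).1.1
  have hpos : 0 < Nat.find hex := by
    rw [Nat.pos_iff_ne_zero]
    intro h0
    rw [h0] at hxk
    apply hxk
    show g (φ.symm (φ x)) = 0
    rw [φ.left_inv (hW x hxW).2.2]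
    exact (hW x hxW).1.2.1 hxD
  obtain ⟨m, hm⟩ : ∃ m, Nat.find hex = m + 1 := ⟨Nat.find hex - 1, by omega⟩
  rw [hm, dir_succ] at hxk
  set u : X → ℂ := fun y => dir v (g ∘ φ.symm) m (φ y) with hu
  have hux : ∀ y ∈ W, J.HolAt (Cm n) u y := by
    intro y hy
    rw [holAt_iff_chart (hW y hy).2.2]
    refine (analyticAt_dir (v := v) (hgx y hy) m).congr ?_
    filter_upwards [φ.open_target.mem_nhds (φ.map_source (hW y hy).2.2)] with w hw
    show _ = dir v (g ∘ φ.symm) m (φ (φ.symm w))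
    rw [φ.right_inv hw]
  have hdu : J.dif (Cm n) u x ≠ 0 := by
    rw [dif_ne_iff_chart (hW x hxW).2.2 (hux x hxW)]
    intro h0
    apply hxk
    have h5 : (u ∘ φ.symm) =ᶠ[𝓝 (φ x)] dir v (g ∘ φ.symm) m := by
      filter_upwards [φ.open_target.mem_nhds (φ.map_source (hW x hxW).2.2)] with w hw
      show dir v (g ∘ φ.symm) m (φ (φ.symm w)) = _
      rw [φ.right_inv hw]
    rw [← h5.fderiv_eq, h0]
    rfl
  have huD : ∀ y ∈ W, y ∈ D → u y = 0 := fun y hy hyD => hmin m (by omega) y hy hyD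
  have hWx : W ∈ 𝓝 x := hWo.mem_nhds hxW
  have hgne : ¬ ∀ᶠ y in 𝓝 x, g y = 0 := by
    intro hcon
    apply hdu
    have h5 : u =ᶠ[𝓝 x] fun _ => 0 := by
      filter_upwards [hcon, hWx] with y h6 h7
      exact huD y h7 ((hW y h7).1.2.2 h6)
    show mfderiv 𝓘(ℂ, Cm n) 𝓘(ℂ, ℂ) u x = 0
    rw [h5.mfderiv_eq, mfderiv_const]
    rfl
  obtain ⟨l, w, hw, hev, hw0⟩ := exists_pow_mul (hux x hxW) (huD x hxW hxD) hdu
    (hW x hxW).1.1 hgne
  have hl : 0 < l := by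
    refine pos_of_subset (hux x hxW) (huD x hxW hxD) hdu (hW x hxW).1.1
      ((hW x hxW).1.2.1 hxD) ?_ hw hev hw0
    filter_upwards [hWx] with y hy h6
    exact huD y hy ((hW y hy).1.2.2 h6)
  obtain ⟨y, hy, hy2⟩ := (Filter.not_eventually.1 hw0).and_eventually
    ((hev.eventually_nhds.and hWx).and ((eventually_dif_ne (hux x hxW) hdu).and
      (holAt_eventually hw))) |>.exists
  obtain ⟨⟨hy2, hy3⟩, hy4, hy5⟩ := hy2
  rw [Classical.not_imp] at hy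
  refine ⟨y, (hW y hy3).2.1, u, hux y hy3, hy.1, hy4, ?_⟩
  have h7 : ∀ᶠ y' in 𝓝 y, w y' ≠ 0 := (show HolV (Cm n) w y from hy5).continuousAt.eventually_ne hy.2
  filter_upwards [hy2, h7, hWo.mem_nhds hy3] with y' h8 h9 h10
  rw [(hW y' h10).1.2, h8, mul_eq_zero, or_iff_left h9, pow_eq_zero_iff hl.ne']

end Vale.Agent.P281.H511.Gen
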