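import Mathlib

/-!
# P281, project T-V (helper511): local theory of hypersurfaces in `ℂ^n`
-/

set_option linter.all false

open Filter Topology Metric Set
open scoped NNReal ENNReal

noncomputable section

namespace Vale.Agent.P281.H511.Gen

section DivGen

variable {V F : Type*} [NormedAddCommGroup V] [NormedSpace ℂ V]
  [NormedAddCommGroup F] [NormedSpace ℂ F]

/-- insertion of a free slot at `j`, with `π` applied to the later slots -/
noncomputable def insSlot (π : V →L[ℂ] V) {k : ℕ} (j : Fin (k + 1))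
    (p : ContinuousMultilinearMap ℂ (fun _ : Fin (k + 1) => V) F) :
    ContinuousMultilinearMap ℂ (fun _ : Fin k => V) (V →L[ℂ] F) :=
  ((p.curryMid j).flipMultilinear).compContinuousLinearMap
    (fun i => if i.castSucc < j then ContinuousLinearMap.id ℂ V else π)

lemma insSlot_apply (π : V →L[ℂ] V) {k : ℕ} (j : Fin (k + 1))
    (p : ContinuousMultilinearMap ℂ (fun _ : Fin (k + 1) => V) F) (v : Fin k → V) (a : V) :
    insSlot π j p v a =
      p (j.insertNth a (fun i => if i.castSucc < j then v i else π (v i))) := by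
  simp only [insSlot, ContinuousMultilinearMap.compContinuousLinearMap_apply,
    ContinuousLinearMap.flipMultilinear_apply_apply]
  erw [ContinuousMultilinearMap.curryMid_apply]
  congr 2
  funext i
  split_ifs <;> rfl

lemma norm_insSlot_le (π : V →L[ℂ] V) (hπ : ‖π‖ ≤ 1) {k : ℕ} (j : Fin (k + 1))
    (p : ContinuousMultilinearMap ℂ (fun _ : Fin (k + 1) => V) F) :
    ‖insSlot π j p‖ ≤ ‖p‖ := by
  refine ContinuousMultilinearMap.opNorm_le_bound (norm_nonneg _) fun v => ?_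
  refine ContinuousLinearMap.opNorm_le_bound _ (by positivity) fun a => ?_
  rw [insSlot_apply]
  refine (p.le_opNorm _).trans ?_
  rw [mul_assoc]
  refine mul_le_mul_of_nonneg_left ?_ (norm_nonneg _)
  rw [Fin.prod_univ_succAbove _ j, Fin.insertNth_apply_same, mul_comm]
  refine mul_le_mul_of_nonneg_right ?_ (norm_nonneg _)
  refine Finset.prod_le_prod (fun _ _ => norm_nonneg _) fun i _ => ?_
  rw [Fin.insertNth_apply_succAbove]
  split_ifs
  · exact le_rfl
  · exact (π.le_opNorm _).trans (by nlinarith [norm_nonneg (v i)])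

/-- the telescoping identity -/
lemma sum_insSlot (π : V →L[ℂ] V) {k : ℕ}
    (p : ContinuousMultilinearMap ℂ (fun _ : Fin (k + 1) => V) F) (v : V) :
    ∑ j : Fin (k + 1), insSlot π j p (fun _ => v) (v - π v) =
      p (fun _ => v) - p (fun _ => π v) := by
  set u : ℕ → (Fin (k + 1) → V) := fun m i => if (i : ℕ) < m then v else π v with hu
  have key : ∀ j : Fin (k + 1), insSlot π j p (fun _ => v) (v - π v) =
      p (u (j + 1)) - p (u j) := by
    intro j
    rw [map_sub, insSlot_apply, insSlot_apply]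
    congr 2
    · funext i
      refine Fin.succAboveCases j ?_ (fun i => ?_) i
      · simp [hu]
      · simp only [Fin.insertNth_apply_succAbove, hu]
        by_cases h : i.castSucc < j
        · rw [if_pos h, Fin.succAbove_of_castSucc_lt _ _ h, if_pos]
          have : (i : ℕ) < j := h
          simp only [Fin.val_castSucc]; omega
        · rw [if_neg h, Fin.succAbove_of_le_castSucc _ _ (not_lt.mp h), if_neg]
          have : (j : ℕ) ≤ i := not_lt.mp h
          simp only [Fin.val_succ]; omega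
    · funext i
      refine Fin.succAboveCases j ?_ (fun i => ?_) i
      · simp [hu]
      · simp only [Fin.insertNth_apply_succAbove, hu]
        by_cases h : i.castSucc < j
        · rw [if_pos h, Fin.succAbove_of_castSucc_lt _ _ h, if_pos]
          have : (i : ℕ) < j := h
          simpa using this
        · rw [if_neg h, Fin.succAbove_of_le_castSucc _ _ (not_lt.mp h), if_neg]
          have : (j : ℕ) ≤ i := not_lt.mp h
          simp only [Fin.val_succ]; omega
  rw [Finset.sum_congr rfl fun j _ => key j,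
    Fin.sum_univ_eq_sum_range (fun m => p (u (m + 1)) - p (u m)) (k + 1),
    Finset.sum_range_sub (fun m => p (u m))]
  congr 2
  funext i
  simp [hu, i.isLt]

/-- the power series of the quotient -/
noncomputable def divSeries (π : V →L[ℂ] V) (p : FormalMultilinearSeries ℂ V F) :
    FormalMultilinearSeries ℂ V (V →L[ℂ] F) :=
  fun k => ∑ j : Fin (k + 1), insSlot π j (p (k + 1))

lemma norm_divSeries_le (π : V →L[ℂ] V) (hπ : ‖π‖ ≤ 1) (p : FormalMultilinearSeries ℂ V F)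
    (k : ℕ) : ‖divSeries π p k‖ ≤ (k + 1) * ‖p (k + 1)‖ := by
  have h1 : ‖divSeries π p k‖ ≤ ∑ j : Fin (k + 1), ‖insSlot π j (p (k + 1))‖ :=
    norm_sum_le Finset.univ (fun j : Fin (k + 1) => insSlot π j (p (k + 1)))
  refine h1.trans ?_
  refine (Finset.sum_le_sum fun (j : Fin (k + 1)) _ =>
    norm_insSlot_le π hπ j (p (k + 1))).trans ?_
  simp

lemma divSeries_radius_pos (π : V →L[ℂ] V) (hπ : ‖π‖ ≤ 1) (p : FormalMultilinearSeries ℂ V F)
    (hp : 0 < p.radius) : 0 < (divSeries π p).radius := by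
  obtain ⟨C, r, hC, hr, h⟩ := p.le_mul_pow_of_radius_pos hp
  have hC' : 0 < C := hC
  have h2 : ∀ k : ℕ, ‖divSeries π p k‖ * ((1 / (2 * r) : ℝ)) ^ k ≤ C * r := by
    intro k
    have h3 := norm_divSeries_le π hπ p k
    have h4 := h (k + 1)
    have h5 : ((k : ℝ) + 1) ≤ 2 ^ k := by
      have := Nat.lt_two_pow_self (n := k)
      exact_mod_cast this
    calc ‖divSeries π p k‖ * (1 / (2 * r)) ^ k
        ≤ ((k + 1) * (C * r ^ (k + 1))) * (1 / (2 * r)) ^ k := by
          gcongr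
          exact h3.trans (by gcongr)
      _ = (k + 1) * (C * r) * (1 / 2) ^ k := by
          have h7 : r ^ k * (1 / r) ^ k = 1 := by
            rw [← mul_pow, mul_one_div_cancel hr.ne', one_pow]
          have h8 : (1 / (2 * r) : ℝ) ^ k = (1 / 2) ^ k * (1 / r) ^ k := by
            rw [← mul_pow]; congr 1; field_simp
          rw [h8, pow_succ]
          linear_combination ((k : ℝ) + 1) * (C * r) * (1 / 2) ^ k * h7
      _ ≤ 2 ^ k * (C * r) * (1 / 2) ^ k := by gcongr
      _ = C * r := by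
          rw [mul_comm (2 ^ k) _, mul_assoc, ← mul_pow]; norm_num
  set r' : ℝ≥0 := ⟨1 / (2 * r), by positivity⟩ with hr'
  have h6 : (r' : ℝ≥0∞) ≤ (divSeries π p).radius :=
    FormalMultilinearSeries.le_radius_of_bound _ (C * r) h2
  refine lt_of_lt_of_le ?_ h6
  rw [ENNReal.coe_pos]
  exact_mod_cast (by positivity : (0 : ℝ) < 1 / (2 * r))

/-- Hadamard division: `φ v - φ (π v) = Q v (v - π v)` with `Q` analytic. -/
theorem exists_division [CompleteSpace F] (π : V →L[ℂ] V) (hπ : ‖π‖ ≤ 1) {φ : V → F} {v₀ : V}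
    (hφ : AnalyticAt ℂ φ v₀) :
    ∃ Q : V → (V →L[ℂ] F), AnalyticAt ℂ Q v₀ ∧
      ∀ᶠ v in 𝓝 v₀, φ v - φ (v₀ + π (v - v₀)) = Q v (v - (v₀ + π (v - v₀))) := by
  obtain ⟨p, r, hp⟩ := hφ
  have hrad : 0 < p.radius := lt_of_lt_of_le hp.r_pos hp.r_le
  have hq := divSeries_radius_pos π hπ p hrad
  have hQ := (divSeries π p).hasFPowerSeriesOnBall hq
  refine ⟨fun v => (divSeries π p).sum (v - v₀), ?_, ?_⟩
  · have h1 : AnalyticAt ℂ (divSeries π p).sum (v₀ - v₀) := by
      rw [sub_self]; exact hQ.analyticAt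
    exact h1.comp_of_eq (analyticAt_id.sub analyticAt_const) rfl
  · have hball1 : ∀ᶠ v in 𝓝 v₀, v - v₀ ∈ Metric.eball (0 : V) r := by
      have : Tendsto (fun v => v - v₀) (𝓝 v₀) (𝓝 0) := by
        have h : Continuous (fun v => v - v₀) := by fun_prop
        have := h.tendsto v₀
        rwa [sub_self] at this
      exact this (Metric.eball_mem_nhds 0 hp.r_pos)
    have hball2 : ∀ᶠ v in 𝓝 v₀, v - v₀ ∈ Metric.eball (0 : V) (divSeries π p).radius := by
      have : Tendsto (fun v => v - v₀) (𝓝 v₀) (𝓝 0) := by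
        have h : Continuous (fun v => v - v₀) := by fun_prop
        have := h.tendsto v₀
        rwa [sub_self] at this
      exact this (Metric.eball_mem_nhds 0 hq)
    filter_upwards [hball1, hball2] with v hv1 hv2
    set w := v - v₀ with hw
    have hπw : π w ∈ Metric.eball (0 : V) r := by
      rw [Metric.mem_eball, edist_zero_right] at hv1 ⊢
      refine lt_of_le_of_lt ?_ hv1
      rw [← ofReal_norm, ← ofReal_norm]
      refine ENNReal.ofReal_le_ofReal ((π.le_opNorm w).trans ?_)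
      nlinarith [norm_nonneg w]
    have s1 := hp.hasSum hv1
    have s2 := hp.hasSum hπw
    have s3 := hQ.hasSum hv2
    rw [zero_add] at s3
    have s4 : HasSum (fun k => (divSeries π p k (fun _ => w)) (w - π w))
        ((divSeries π p).sum w (w - π w)) :=
      (ContinuousLinearMap.apply ℂ F (w - π w)).hasSum s3
    have s5 := s1.sub s2
    have hv : v₀ + w = v := by rw [hw]; abel
    rw [hv] at s5
    have s6 : HasSum (fun k => (p (k + 1) fun _ => w) - p (k + 1) fun _ => π w)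
        (φ v - φ (v₀ + π w)) := by
      rw [← hasSum_nat_add_iff' 1] at s5
      have h0 : (p 0 fun _ => w) = p 0 fun _ => π w := by
        congr 1; funext i; exact i.elim0
      simpa [h0] using s5
    have s7 : (fun k => (divSeries π p k (fun _ => w)) (w - π w)) =
        fun k => (p (k + 1) fun _ => w) - p (k + 1) fun _ => π w := by
      funext k
      rw [← sum_insSlot]
      simp [divSeries]
    rw [s7] at s4
    have h8 := s6.unique s4
    rw [h8]
    congr 1
    rw [hw]; abel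

end DivGen

variable {n : ℕ}

/-- projection on the hyperplane `v σ = 0` -/
def pr (σ : Fin n) : (Fin n → ℂ) →L[ℂ] (Fin n → ℂ) :=
  ContinuousLinearMap.pi fun i => if i = σ then 0 else ContinuousLinearMap.proj i

theorem pr_apply (σ : Fin n) (v : Fin n → ℂ) : pr σ v = Function.update v σ 0 := by
  funext i
  by_cases h : i = σ
  · subst h
    simp [pr]
  · simp [pr, h, Function.update_of_ne h]

theorem norm_pr_le (σ : Fin n) : ‖pr σ‖ ≤ 1 := by
  refine ContinuousLinearMap.opNorm_le_bound _ zero_le_one fun v => ?_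
  rw [one_mul, pr_apply]
  refine (pi_norm_le_iff_of_nonneg (norm_nonneg _)).2 fun i => ?_
  by_cases h : i = σ
  · subst h
    simp
  · rw [Function.update_of_ne h]
    exact norm_le_pi_norm v i

theorem update_eq {σ : Fin n} {v₀ v : Fin n → ℂ} (h0 : v₀ σ = 0) :
    v₀ + pr σ (v - v₀) = Function.update v σ 0 := by
  rw [pr_apply]
  funext i
  by_cases h : i = σ
  · subst h
    simp [h0]
  · simp [Function.update_of_ne h]

theorem update_mem_ball {σ : Fin n} {v₀ v : Fin n → ℂ} {r : ℝ} (h0 : v₀ σ = 0)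
    (hv : v ∈ ball v₀ r) : Function.update v σ 0 ∈ ball v₀ r := by
  rw [← update_eq h0]
  rw [mem_ball_iff_norm] at hv ⊢
  rw [add_sub_cancel_left]
  refine lt_of_le_of_lt ((pr σ).le_opNorm _) ?_
  refine lt_of_le_of_lt ?_ hv
  have := norm_pr_le σ
  nlinarith [norm_nonneg (v - v₀)]

/-- division by a coordinate -/
theorem div_coord {σ : Fin n} {h : (Fin n → ℂ) → ℂ} {v₀ : Fin n → ℂ} (hv₀ : v₀ σ = 0)
    (hh : AnalyticAt ℂ h v₀) (h0 : ∀ᶠ v in 𝓝 v₀, v σ = 0 → h v = 0) :
    ∃ w : (Fin n → ℂ) → ℂ, AnalyticAt ℂ w v₀ ∧ ∀ᶠ v in 𝓝 v₀, h v = v σ * w v := by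
  obtain ⟨Q, hQ, he⟩ := exists_division (pr σ) (norm_pr_le σ) hh
  refine ⟨fun v => Q v (Pi.single σ 1), ?_, ?_⟩
  · exact ((ContinuousLinearMap.apply ℂ ℂ (Pi.single σ 1 : Fin n → ℂ)).analyticAt _).comp hQ
  · have h1 : Tendsto (fun v : Fin n → ℂ => Function.update v σ 0) (𝓝 v₀) (𝓝 v₀) := by
      have h2 : Continuous fun v : Fin n → ℂ => Function.update v σ 0 :=
        continuous_id.update σ continuous_const
      have h3 := h2.tendsto v₀
      rwa [show Function.update v₀ σ 0 = v₀ from by rw [← hv₀, Function.update_eq_self]] at h3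
    filter_upwards [he, h1.eventually h0] with v hv hv0
    rw [update_eq hv₀] at hv
    rw [hv0 (by simp), sub_zero] at hv
    have e1 : v - Function.update v σ 0 = v σ • (Pi.single σ 1 : Fin n → ℂ) := by
      funext i
      by_cases hi : i = σ
      · subst hi
        simp
      · simp [Function.update_of_ne hi, Pi.single_eq_of_ne hi]
    rw [hv, e1, map_smul, smul_eq_mul]

/-- the identity theorem in the slice `v σ = 0` of a ball -/
theorem slice_identity {σ : Fin n} {h : (Fin n → ℂ) → ℂ} {v₀ : Fin n → ℂ} {r : ℝ}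
    (hv₀ : v₀ σ = 0) (hh : ∀ v ∈ ball v₀ r, AnalyticAt ℂ h v) {v₁ : Fin n → ℂ}
    (hv₁ : v₁ ∈ ball v₀ r) (hv₁0 : v₁ σ = 0) (h0 : ∀ᶠ v in 𝓝 v₁, v σ = 0 → h v = 0) :
    ∀ v ∈ ball v₀ r, v σ = 0 → h v = 0 := by
  have hup : ∀ v : Fin n → ℂ, v σ = 0 → Function.update v σ 0 = v := by
    intro v hv
    rw [← hv, Function.update_eq_self]
  have hu : ∀ v, AnalyticAt ℂ (fun v : Fin n → ℂ => Function.update v σ 0) v := by
    intro v
    have : (fun v : Fin n → ℂ => Function.update v σ 0) = fun v => pr σ v := by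
      funext v
      rw [pr_apply]
    rw [this]
    exact (pr σ).analyticAt v
  have h1 : AnalyticOnNhd ℂ (fun v => h (Function.update v σ 0)) (ball v₀ r) := by
    intro v hv
    exact AnalyticAt.comp (g := h) (f := fun v : Fin n → ℂ => Function.update v σ 0)
      (hh _ (update_mem_ball hv₀ hv)) (hu v)
  have h2 : (fun v => h (Function.update v σ 0)) =ᶠ[𝓝 v₁] 0 := by
    have h3 : Tendsto (fun v : Fin n → ℂ => Function.update v σ 0) (𝓝 v₁) (𝓝 v₁) := by
      have := (hu v₁).continuousAt.tendsto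
      rwa [hup v₁ hv₁0] at this
    filter_upwards [h3.eventually h0] with v hv
    exact hv (by simp)
  have h4 := h1.eqOn_zero_of_preconnected_of_eventuallyEq_zero (convex_ball _ _).isPreconnected
    hv₁ h2
  intro v hv hv0
  have h5 := h4 hv
  simp only [Pi.zero_apply] at h5
  rwa [hup v hv0] at h5

/-- analytic functions on a segment -/
theorem line_analytic {h : (Fin n → ℂ) → ℂ} {v₀ : Fin n → ℂ} {r : ℝ}
    (hh : ∀ v ∈ ball v₀ r, AnalyticAt ℂ h v) (d : Fin n → ℂ) :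
    AnalyticOnNhd ℂ (fun t : ℂ => h (v₀ + t • d)) {t | v₀ + t • d ∈ ball v₀ r} := by
  intro t ht
  have h1 : AnalyticAt ℂ (fun t : ℂ => v₀ + t • d) t := by fun_prop
  exact AnalyticAt.comp (g := h) (f := fun t : ℂ => v₀ + t • d) (hh _ ht) h1

theorem line_preconnected {v₀ : Fin n → ℂ} {r : ℝ} (d : Fin n → ℂ) :
    IsPreconnected {t : ℂ | v₀ + t • d ∈ ball v₀ r} := by
  have h1 : {t : ℂ | v₀ + t • d ∈ ball v₀ r} =
      (fun t : ℂ => t • d) ⁻¹' ball 0 r := by
    ext t
    simp [mem_ball_iff_norm]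
  rw [h1]
  apply Convex.isPreconnected
  intro a ha b hb s t hs ht hst
  have h2 := convex_ball (0 : Fin n → ℂ) r ha hb hs ht hst
  have e1 : (s • a + t • b) • d = s • a • d + t • b • d := by
    rw [add_smul, smul_assoc, smul_assoc]
  show (s • a + t • b) • d ∈ ball 0 r
  rw [e1]
  exact h2

/-- if `h (v₀ + d) ≠ 0` then `h` does not vanish identically on the line -/
theorem line_not_zero {h : (Fin n → ℂ) → ℂ} {v₀ : Fin n → ℂ} {r : ℝ}
    (hh : ∀ v ∈ ball v₀ r, AnalyticAt ℂ h v) {d : Fin n → ℂ} (hd : v₀ + d ∈ ball v₀ r)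
    (hd0 : h (v₀ + d) ≠ 0) : ¬ ∀ᶠ t : ℂ in 𝓝 0, h (v₀ + t • d) = 0 := by
  intro hcon
  have hr : 0 < r := by
    by_contra hr
    rw [ball_eq_empty.2 (not_lt.1 hr)] at hd
    exact hd
  have h0 : (0 : ℂ) ∈ {t : ℂ | v₀ + t • d ∈ ball v₀ r} := by
    simpa using hr
  have h1 := (line_analytic hh d).eqOn_zero_of_preconnected_of_eventuallyEq_zero
    (line_preconnected d) h0 hcon
  have h2 := h1 (show (1 : ℂ) ∈ {t : ℂ | v₀ + t • d ∈ ball v₀ r} by simpa using hd)
  simp only [one_smul, Pi.zero_apply] at h2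
  exact hd0 h2

/-- the zero set of `w` is not contained in `v σ = 0`, unless it contains it -/
theorem slice_zero {σ : Fin n} {w : (Fin n → ℂ) → ℂ} {v₀ : Fin n → ℂ} (hv₀ : v₀ σ = 0)
    (hw : AnalyticAt ℂ w v₀) (hw0 : w v₀ = 0) (hs : ∀ᶠ v in 𝓝 v₀, w v = 0 → v σ = 0) :
    ∀ᶠ v in 𝓝 v₀, v σ = 0 → w v = 0 := by
  by_contra hcon
  obtain ⟨r, hr, hb⟩ := Metric.eventually_nhds_iff_ball.1 (hw.eventually_analyticAt.and hs)
  obtain ⟨v₁, hv₁, hv₁b⟩ := (Filter.not_eventually.1 hcon).and_eventually (ball_mem_nhds v₀ hr)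
    |>.exists
  rw [Classical.not_imp] at hv₁
  obtain ⟨hv₁0, hwv₁⟩ := hv₁
  set d := v₁ - v₀ with hd
  have hdσ : d σ = 0 := by simp [hd, hv₀, hv₁0]
  have e1 : v₀ + d = v₁ := by rw [hd]; abel
  have h1 := line_not_zero (fun v hv => (hb v hv).1) (d := d) (by rwa [e1]) (by rwa [e1])
  have han : AnalyticAt ℂ (fun t : ℂ => w (v₀ + t • d)) 0 :=
    line_analytic (fun v hv => (hb v hv).1) d 0 (by simpa using hr)
  have h2 : ∀ᶠ t : ℂ in 𝓝[≠] 0, w (v₀ + t • d) ≠ 0 :=
    (han.eventually_eq_zero_or_eventually_ne_zero).resolve_left h1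
  -- a small radius
  have h3 : ∀ᶠ t : ℂ in 𝓝 0, t ≠ 0 → w (v₀ + t • d) ≠ 0 := by
    rw [eventually_nhdsWithin_iff] at h2
    exact h2
  have h4 : ∀ᶠ p : ℂ × ℂ in 𝓝 (0, 0), v₀ + p.2 • d + p.1 • (Pi.single σ 1 : Fin n → ℂ) ∈
      ball v₀ r := by
    have h5 : Continuous fun p : ℂ × ℂ => v₀ + p.2 • d + p.1 • (Pi.single σ 1 : Fin n → ℂ) := by
      fun_prop
    refine h5.continuousAt.eventually (isOpen_ball.mem_nhds ?_)
    simpa using hr
  obtain ⟨ρ₁, hρ₁, hb₁⟩ := Metric.eventually_nhds_iff_ball.1 h3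
  obtain ⟨ρ₂, hρ₂, hb₂⟩ := Metric.eventually_nhds_iff_ball.1 h4
  set ρ := min ρ₁ ρ₂ / 2 with hρd
  have hρ : 0 < ρ := by positivity
  have hρ₁' : ρ < ρ₁ := by
    have := min_le_left ρ₁ ρ₂
    linarith
  have hρ₂' : ρ < ρ₂ := by
    have := min_le_right ρ₁ ρ₂
    linarith
  have hmem : ∀ s t : ℂ, ‖s‖ ≤ ρ → ‖t‖ ≤ ρ →
      v₀ + t • d + s • (Pi.single σ 1 : Fin n → ℂ) ∈ ball v₀ r := by
    intro s t hs ht
    refine hb₂ (s, t) ?_
    rw [mem_ball, Prod.dist_eq]
    simp only [dist_zero_right]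
    exact max_lt (hs.trans_lt hρ₂') (ht.trans_lt hρ₂')
  -- lower bound on the circle
  set F : ℂ → ℂ → ℂ := fun s t => w (v₀ + t • d + s • (Pi.single σ 1 : Fin n → ℂ)) with hF
  have hFc : ∀ s t : ℂ, ‖s‖ ≤ ρ → ‖t‖ ≤ ρ → ContinuousAt (fun p : ℂ × ℂ => F p.1 p.2) (s, t) := by
    intro s t hs ht
    have h5 : ContinuousAt w (v₀ + t • d + s • (Pi.single σ 1 : Fin n → ℂ)) :=
      (hb _ (hmem s t hs ht)).1.continuousAt
    refine ContinuousAt.comp_of_eq (f := fun p : ℂ × ℂ =>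
      v₀ + p.2 • d + p.1 • (Pi.single σ 1 : Fin n → ℂ)) h5 (by fun_prop) rfl
  have hF0 : ∀ t : ℂ, F 0 t = w (v₀ + t • d) := by
    intro t
    simp [hF]
  obtain ⟨c, hc, hcb⟩ : ∃ c : ℝ, 0 < c ∧ ∀ t ∈ sphere (0 : ℂ) ρ, c < ‖F 0 t‖ := by
    have hcont : ContinuousOn (fun t => ‖F 0 t‖) (sphere (0 : ℂ) ρ) := by
      intro t ht
      have h5 := hFc 0 t (by simpa using hρ.le) (by
        rw [mem_sphere, dist_zero_right] at ht
        exact ht.le)
      have h6 : ContinuousAt (fun t => F 0 t) t :=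
        ContinuousAt.comp_of_eq (f := fun t : ℂ => ((0 : ℂ), t)) h5 (by fun_prop) rfl
      exact h6.norm.continuousWithinAt
    obtain ⟨t₀, ht₀, hmin⟩ := (isCompact_sphere (0 : ℂ) ρ).exists_isMinOn
      (NormedSpace.sphere_nonempty.2 hρ.le) hcont
    have hpos : 0 < ‖F 0 t₀‖ := by
      rw [norm_pos_iff, hF0]
      refine hb₁ t₀ ?_ ?_
      · rw [mem_sphere] at ht₀
        rw [mem_ball, ht₀]
        exact hρ₁'
      · rintro rfl
        rw [mem_sphere, dist_self] at ht₀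
        exact hρ.ne ht₀
    refine ⟨‖F 0 t₀‖ / 2, by positivity, fun t ht => ?_⟩
    have h5 : ‖F 0 t₀‖ ≤ ‖F 0 t‖ := hmin ht
    linarith
  have h6 : ∀ᶠ s in 𝓝 (0 : ℂ), ∀ t ∈ sphere (0 : ℂ) ρ, c < ‖F s t‖ := by
    refine IsCompact.eventually_forall_of_forall_eventually (isCompact_sphere (0 : ℂ) ρ) ?_
    intro t ht
    have h7 := (hFc 0 t (by simpa using hρ.le) (by
        rw [mem_sphere, dist_zero_right] at ht
        exact ht.le)).norm
    exact h7.eventually (lt_mem_nhds (hcb t ht))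
  have h7 : ∀ᶠ s in 𝓝 (0 : ℂ), ‖F s 0‖ < c := by
    have h8 := hFc 0 0 (by simpa using hρ.le) (by simpa using hρ.le)
    have h9 : ContinuousAt (fun s => ‖F s 0‖) 0 :=
      (ContinuousAt.comp_of_eq (f := fun s : ℂ => (s, (0 : ℂ))) h8 (by fun_prop) rfl).norm
    refine h9.eventually (gt_mem_nhds ?_)
    show ‖F 0 0‖ < c
    rw [hF0, zero_smul, add_zero, hw0, norm_zero]
    exact hc
  have h8 : ∀ᶠ s in 𝓝[≠] (0 : ℂ), s ≠ 0 ∧ ‖s‖ < ρ ∧ (∀ t ∈ sphere (0 : ℂ) ρ, c < ‖F s t‖) ∧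
      ‖F s 0‖ < c := by
    rw [eventually_nhdsWithin_iff]
    filter_upwards [h6, h7, ball_mem_nhds (0 : ℂ) hρ] with s h1 h2 h3 h4
    rw [mem_ball, dist_zero_right] at h3
    exact ⟨h4, h3, h1, h2⟩
  obtain ⟨s, hs0, hsρ, hs1, hs2⟩ := h8.exists
  have hne : ∀ t : ℂ, ‖t‖ ≤ ρ → F s t ≠ 0 := by
    intro t ht h9
    have h10 := (hb _ (hmem s t hsρ.le ht)).2 h9
    apply hs0
    simpa [hv₀, hdσ] using h10
  have hdiff : DiffContOnCl ℂ (fun t => (F s t)⁻¹) (ball (0 : ℂ) ρ) := by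
    apply DifferentiableOn.diffContOnCl
    rw [closure_ball _ hρ.ne']
    intro t ht
    rw [mem_closedBall, dist_zero_right] at ht
    have h9 : DifferentiableAt ℂ w (v₀ + t • d + s • (Pi.single σ 1 : Fin n → ℂ)) :=
      (hb _ (hmem s t hsρ.le ht)).1.differentiableAt
    have h10 : DifferentiableAt ℂ (fun t : ℂ => v₀ + t • d +
      s • (Pi.single σ 1 : Fin n → ℂ)) t := by fun_prop
    have h11 : DifferentiableAt ℂ (fun t => F s t) t :=
      DifferentiableAt.comp (g := w) t h9 h10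
    exact (h11.inv (hne t ht)).differentiableWithinAt
  have h9 := Complex.norm_le_of_forall_mem_frontier_norm_le (C := c⁻¹) isBounded_ball hdiff
    (fun t ht => by
      rw [frontier_ball _ hρ.ne'] at ht
      rw [norm_inv]
      exact inv_anti₀ hc (hs1 t ht).le) (subset_closure (mem_ball_self hρ))
  rw [norm_inv] at h9
  have h10 : 0 < ‖F s 0‖ := norm_pos_iff.2 (hne 0 (by simpa using hρ.le))
  have h11 := (inv_le_inv₀ h10 hc).1 h9
  linarith

/-! ### Straightening a smooth hypersurface -/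

/-- coordinates whose coordinate `σ` is the function `e` -/
theorem straighten {z₀ : Fin n → ℂ} {e : (Fin n → ℂ) → ℂ} (he : AnalyticAt ℂ e z₀)
    (hde : fderiv ℂ e z₀ ≠ 0) :
    ∃ (σ : Fin n) (Φ : OpenPartialHomeomorph (Fin n → ℂ) (Fin n → ℂ)), z₀ ∈ Φ.source ∧
      (∀ z, Φ z σ = e z) ∧ AnalyticAt ℂ Φ z₀ ∧ AnalyticAt ℂ Φ.symm (Φ z₀) := by
  classical
  obtain ⟨σ, hσ⟩ : ∃ σ : Fin n, fderiv ℂ e z₀ (Pi.single σ 1) ≠ 0 := by
    by_contra hcon
    push Not at hcon
    apply hde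
    ext v
    rw [show v = ∑ i, v i • (Pi.single i 1 : Fin n → ℂ) from by
      funext j
      simp [Finset.sum_apply, Pi.single_apply], map_sum]
    simp [hcon]
  set F : (Fin n → ℂ) → (Fin n → ℂ) := fun z => Function.update z σ (e z) with hF
  have hFa : AnalyticAt ℂ F z₀ := by
    rw [analyticAt_pi_iff]
    intro i
    by_cases hi : i = σ
    · subst hi
      simpa [hF] using he
    · simp only [hF, Function.update_of_ne hi]
      exact (ContinuousLinearMap.proj (R := ℂ) (φ := fun _ : Fin n => ℂ) i).analyticAt z₀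
  set L' : (Fin n → ℂ) →L[ℂ] (Fin n → ℂ) := ContinuousLinearMap.pi fun i =>
    if i = σ then fderiv ℂ e z₀ else ContinuousLinearMap.proj i with hL'
  have hinj : Function.Injective L' := by
    rw [injective_iff_map_eq_zero]
    intro v h
    have h1 : ∀ i, i ≠ σ → v i = 0 := by
      intro i hi
      have := congrFun h i
      simpa [hL', hi] using this
    have h2 : fderiv ℂ e z₀ v = 0 := by
      have := congrFun h σ
      simpa [hL'] using this
    have h3 : v = v σ • (Pi.single σ 1 : Fin n → ℂ) := by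
      funext i
      by_cases hi : i = σ
      · subst hi
        simp
      · simp [h1 i hi, Pi.single_eq_of_ne hi]
    rw [h3, map_smul, smul_eq_mul, mul_eq_zero] at h2
    rw [h3, h2.resolve_right hσ, zero_smul]
  let L0 : (Fin n → ℂ) ≃ₗ[ℂ] (Fin n → ℂ) :=
    LinearEquiv.ofInjectiveEndo (L' : (Fin n → ℂ) →ₗ[ℂ] (Fin n → ℂ)) hinj
  let L : (Fin n → ℂ) ≃L[ℂ] (Fin n → ℂ) := L0.toContinuousLinearEquiv
  have hL : (L : (Fin n → ℂ) →L[ℂ] (Fin n → ℂ)) = L' := by
    ext1 v
    rfl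
  have hd : ∀ i, DifferentiableAt ℂ (fun z => F z i) z₀ := fun i =>
    (analyticAt_pi_iff.1 hFa i).differentiableAt
  have hfd : fderiv ℂ F z₀ = (L : (Fin n → ℂ) →L[ℂ] (Fin n → ℂ)) := by
    rw [hL, fderiv_pi hd, hL']
    congr 1
    funext i
    by_cases hi : i = σ
    · subst hi
      simp [hF]
    · simp only [hF, Function.update_of_ne hi, if_neg hi]
      exact (ContinuousLinearMap.proj (R := ℂ) (φ := fun _ : Fin n => ℂ) i).fderiv
  have hst : HasStrictFDerivAt F (L : (Fin n → ℂ) →L[ℂ] (Fin n → ℂ)) z₀ := by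
    rw [← hfd]
    exact hFa.hasStrictFDerivAt
  refine ⟨σ, hst.toOpenPartialHomeomorph F, hst.mem_toOpenPartialHomeomorph_source,
    fun z => ?_, ?_, ?_⟩
  · rw [hst.toOpenPartialHomeomorph_coe, hF]
    simp
  · rw [hst.toOpenPartialHomeomorph_coe]
    exact hFa
  · exact (hst.toOpenPartialHomeomorph F).analyticAt_symm'
      hst.mem_toOpenPartialHomeomorph_source hFa hfd

/-! ### Order of vanishing -/

/-- the iterated derivatives in the direction `v` -/
def dir (v : Fin n → ℂ) (g : (Fin n → ℂ) → ℂ) (k : ℕ) : (Fin n → ℂ) → ℂ :=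
  (fun (h : (Fin n → ℂ) → ℂ) (y : Fin n → ℂ) => fderiv ℂ h y v)^[k] g

theorem dir_succ (v : Fin n → ℂ) (g : (Fin n → ℂ) → ℂ) (k : ℕ) (y : Fin n → ℂ) :
    dir v g (k + 1) y = fderiv ℂ (dir v g k) y v := by
  simp only [dir, Function.iterate_succ_apply']

theorem analyticAt_dir {v : Fin n → ℂ} {g : (Fin n → ℂ) → ℂ} {y : Fin n → ℂ}
    (hg : AnalyticAt ℂ g y) (k : ℕ) : AnalyticAt ℂ (dir v g k) y := by
  induction k with
  | zero => exact hg
  | succ k ih =>
    have h1 : dir v g (k + 1) = fun y => fderiv ℂ (dir v g k) y v := by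
      funext y
      exact dir_succ v g k y
    rw [h1]
    exact ((ContinuousLinearMap.apply ℂ ℂ v).analyticAt _).comp ih.fderiv

theorem iteratedDeriv_line {g : (Fin n → ℂ) → ℂ} {z₀ v : Fin n → ℂ} {U : Set (Fin n → ℂ)}
    (hU : IsOpen U) (hg : ∀ y ∈ U, AnalyticAt ℂ g y) (k : ℕ) :
    ∀ t : ℂ, z₀ + t • v ∈ U →
      iteratedDeriv k (fun t : ℂ => g (z₀ + t • v)) t = dir v g k (z₀ + t • v) := by
  induction k with
  | zero =>
    intro t ht
    simp [dir]
  | succ k ih =>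
    intro t ht
    have hc : Continuous fun t : ℂ => z₀ + t • v := by fun_prop
    have h1 : iteratedDeriv k (fun t : ℂ => g (z₀ + t • v)) =ᶠ[𝓝 t]
        fun t => dir v g k (z₀ + t • v) := by
      filter_upwards [hc.continuousAt.eventually (hU.mem_nhds ht)] with s hs
      exact ih s hs
    rw [iteratedDeriv_succ, h1.deriv_eq, dir_succ]
    have h2 := (analyticAt_dir (v := v) (hg _ ht) k).differentiableAt.hasFDerivAt
    have h3 : HasDerivAt (fun t : ℂ => z₀ + t • v) v t := by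
      have := ((hasDerivAt_id t).smul_const v).const_add z₀
      simpa using this
    exact (HasFDerivAt.comp_hasDerivAt t (f := fun t : ℂ => z₀ + t • v) h2 h3).deriv

/-- some iterated derivative does not vanish -/
theorem exists_dir_ne {g : (Fin n → ℂ) → ℂ} {z₀ : Fin n → ℂ} (hg : AnalyticAt ℂ g z₀)
    (hg0 : ¬ ∀ᶠ z in 𝓝 z₀, g z = 0) : ∃ (v : Fin n → ℂ) (k : ℕ), dir v g k z₀ ≠ 0 := by
  obtain ⟨r, hr, hb⟩ := Metric.eventually_nhds_iff_ball.1 hg.eventually_analyticAt
  obtain ⟨z₁, hz₁, hz₁b⟩ := (Filter.not_eventually.1 hg0).and_eventually (ball_mem_nhds z₀ hr)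
    |>.exists
  have e1 : z₀ + (z₁ - z₀) = z₁ := by abel
  have h1 := line_not_zero hb (d := z₁ - z₀) (by rwa [e1]) (by rwa [e1])
  refine ⟨z₁ - z₀, ?_⟩
  by_contra hcon
  push Not at hcon
  have han : AnalyticAt ℂ (fun t : ℂ => g (z₀ + t • (z₁ - z₀))) 0 :=
    line_analytic hb (z₁ - z₀) 0 (by simpa using hr)
  have h2 : ∀ k, iteratedDeriv k (fun t : ℂ => g (z₀ + t • (z₁ - z₀))) 0 = 0 := by
    intro k
    rw [iteratedDeriv_line isOpen_ball hb k 0 (by simpa using hr), zero_smul, add_zero]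
    exact hcon k
  have h3 : analyticOrderAt (fun t : ℂ => g (z₀ + t • (z₁ - z₀))) 0 = ⊤ := by
    rw [ENat.eq_top_iff_forall_ge]
    intro k
    exact (natCast_le_analyticOrderAt_iff_iteratedDeriv_eq_zero han).2 fun i _ => h2 i
  exact h1 (analyticOrderAt_eq_top.1 h3)

/-- if `e` vanishes at `z₀`, then the powers of `e` which divide `g ≢ 0` are bounded -/
theorem pow_bound {g e : (Fin n → ℂ) → ℂ} {z₀ : Fin n → ℂ} (hg : AnalyticAt ℂ g z₀)
    (hg0 : ¬ ∀ᶠ z in 𝓝 z₀, g z = 0) (he : AnalyticAt ℂ e z₀) (he0 : e z₀ = 0) :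
    ∃ M : ℕ, ∀ (m : ℕ) (w : (Fin n → ℂ) → ℂ), AnalyticAt ℂ w z₀ →
      (∀ᶠ z in 𝓝 z₀, g z = e z ^ m * w z) → m ≤ M := by
  obtain ⟨r, hr, hb⟩ := Metric.eventually_nhds_iff_ball.1 hg.eventually_analyticAt
  obtain ⟨z₁, hz₁, hz₁b⟩ := (Filter.not_eventually.1 hg0).and_eventually (ball_mem_nhds z₀ hr)
    |>.exists
  have e1 : z₀ + (z₁ - z₀) = z₁ := by abel
  have h1 := line_not_zero hb (d := z₁ - z₀) (by rwa [e1]) (by rwa [e1])
  have hl : ∀ w : (Fin n → ℂ) → ℂ, AnalyticAt ℂ w z₀ →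
      AnalyticAt ℂ (fun t : ℂ => w (z₀ + t • (z₁ - z₀))) 0 := by
    intro w hw
    refine AnalyticAt.comp_of_eq (f := fun t : ℂ => z₀ + t • (z₁ - z₀)) hw (by fun_prop) ?_
    simp
  have hne : analyticOrderAt (fun t : ℂ => g (z₀ + t • (z₁ - z₀))) 0 ≠ ⊤ := by
    intro h
    exact h1 (analyticOrderAt_eq_top.1 h)
  obtain ⟨M, hM⟩ := ENat.ne_top_iff_exists.1 hne
  refine ⟨M, fun m w hw he' => ?_⟩
  have hc : Tendsto (fun t : ℂ => z₀ + t • (z₁ - z₀)) (𝓝 0) (𝓝 z₀) := by
    have h2 : Continuous fun t : ℂ => z₀ + t • (z₁ - z₀) := by fun_prop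
    have := h2.tendsto 0
    simpa using this
  have h3 : (fun t : ℂ => g (z₀ + t • (z₁ - z₀))) =ᶠ[𝓝 0]
      (fun t : ℂ => e (z₀ + t • (z₁ - z₀))) ^ m * fun t : ℂ => w (z₀ + t • (z₁ - z₀)) := by
    filter_upwards [hc.eventually he'] with t ht
    simpa using ht
  have h4 : (m : ℕ∞) ≤ analyticOrderAt (fun t : ℂ => g (z₀ + t • (z₁ - z₀))) 0 := by
    rw [analyticOrderAt_congr h3, analyticOrderAt_mul ((hl e he).pow m) (hl w hw),
      analyticOrderAt_pow (hl e he)]
    have h5 : 1 ≤ analyticOrderAt (fun t : ℂ => e (z₀ + t • (z₁ - z₀))) 0 := by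
      rw [ENat.one_le_iff_ne_zero, (hl e he).analyticOrderAt_ne_zero]
      simpa using he0
    calc (m : ℕ∞) = m • 1 := by simp
      _ ≤ m • analyticOrderAt (fun t : ℂ => e (z₀ + t • (z₁ - z₀))) 0 := by gcongr
      _ ≤ _ := le_self_add
  rw [← hM] at h4
  exact_mod_cast h4

end Vale.Agent.P281.H511.Gen
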