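import Vale.Agent.P281.H511.TD
import Vale.Agent.P281.H64.Gen.Main
import Vale.Agent.P281.H64.Thin.One
import Vale.Agent.P281.H399.Gen.Base
import Vale.Agent.P281.H399.Gen.Etale
import Vale.Agent.P281.H364.Gen.Crit
import Vale.Agent.P281.H150.Gen.Img
import Vale.Agent.P281.H383.Gen.Ext
import Vale.Agent.P281.H969.Gen.Fin

/-!
# P281, project T-V, block V10 (helper511): Campana's inequality for all fibrations of relative
dimension one
-/

open Set Filter Metric Vale.Agent.P281 Vale.Agent.P281.H713 Vale.Agent.P281.H64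
open Vale.Agent.P281.H64.Gen
open Vale.Agent.P281.H713.TZ.S (kodF_eq OrbLe.kapLe)
open Vale.Agent.P281.H64.Thin (IsThinSet)
open scoped Topology ContDiff Manifold

noncomputable section

namespace Vale.Agent.P281.H511.Gen

theorem isBigOpen_id {n : ℕ} {X : Type} [TopologicalSpace X] [ChartedSpace (Cm n) X]
    [IsManifold 𝓘(ℂ, Cm n) ω X] : J.IsBigOpen (Cm n) (id : X → X) := by
  refine ⟨contMDiff_id, Topology.IsOpenEmbedding.id, fun z => ?_, fun x => ?_⟩
  · rw [mfderiv_id]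
    exact Function.injective_id
  · refine ⟨fun _ => 1, contMDiffAt_const, fun h => ?_, Eventually.of_forall fun z => ⟨fun h => ?_,
      fun h => absurd h one_ne_zero⟩⟩
    · exact one_ne_zero h.self_of_nhds
    · exact absurd (mem_range_self z) h

theorem isRestriction_id {X : Type} [TopologicalSpace X] (Δ : Set X → ℝ) :
    J.IsRestriction (id : X → X) Δ Δ :=
  ⟨fun _ _ => rfl, fun D' h => ⟨D', h, rfl⟩⟩

/-- **V10** -/
theorem tv (hI : IrrStmt) : TVStmt := by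
  intro p X Y _ _ _ _ _ _ _ _ _ _ f Δ hf hc hΔ
  have hsurj : Function.Surjective f := fun y => (hc y).nonempty
  have : PreconnectedSpace Y := by
    rw [preconnectedSpace_iff_univ, ← hsurj.range_eq]
    exact isPreconnected_range hf.continuous
  obtain ⟨S₁, hS₁, hP⟩ := H364.crit H150.Gen.img (p + 1) p X Y f hf hc
  obtain ⟨S₂, hS₂, hE⟩ := H399.Gen.etale H150.Gen.img p X Y f Δ hf hΔ
  obtain ⟨S, hSd⟩ : ∃ S, S = S₁ ∪ S₂ := ⟨_, rfl⟩
  have hS : IsSmallSet (Cm p) S := by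
    rw [hSd]
    exact hS₁.union hS₂
  have h1 : IsProperFibration (n := p + 1) (p := p) f S :=
    hP S (by rw [hSd]; exact subset_union_left) hS.1
  have h2 : IsEtale (n := p + 1) (p := p) f S Δ :=
    hE S (by rw [hSd]; exact subset_union_right)
  have hco := (H383.Gen.compl p Y S hS).2
  have hfam : IsFamilyOfCurves (Cm (p + 1)) (Cm p) f S Δ :=
    td p X Y f S Δ hf h1 hco hΔ.1 (fun D hD => (hΔ.2.1 D hD).1) h2
  obtain ⟨H, hH, hSH⟩ := hS.2
  refine ⟨H, hH, ?_⟩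
  intro F _ _ _ _ _ i hi hinj hy
  obtain ⟨y, hyH, hiy⟩ := hy
  have hyS : y ∉ S := by
    intro h
    obtain ⟨k, hk⟩ := mem_iUnion.1 (hSH h)
    exact hyH k hk
  have hsub : ∃ z, Function.Surjective (mfderiv 𝓘(ℂ, Cm (p + 1)) 𝓘(ℂ, Cm p) f z) := by
    obtain ⟨t⟩ : Nonempty F := inferInstance
    exact ⟨i t, h1.submersive _ (by rw [hiy]; exact hyS)⟩
  have hmain : TZ.S.kodR (Cm (p + 1)) (Cm 1) i Δ + TZ.S.kodF (p + 1) p Δ (id : X → X) f ≤
      TZ.S.kodX (Cm (p + 1)) Δ := by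
    rw [kodF_eq]
    exact main_oneG rfl (by simp) id isBigOpen_id f hf S hS Δ hΔ Δ hΔ (isRestriction_id Δ)
      hfam i hi hinj hyS hiy
  have hkap : TZ.S.KapLe (Cm (p + 1)) (Cm p) f Δ (TZ.S.kodF (p + 1) p Δ (id : X → X) f) := by
    refine OrbLe.kapLe ?_
    intro Γ hΓ₁ hΓ₂ hΓ₃ hnc hmor
    rw [kodF_eq]
    exact H713.CO.comp_g H413.TZ.genPart hΔ isBigOpen_id hf hsub ⟨hΓ₁, hΓ₂, hΓ₃⟩ hnc hΔ
      (isRestriction_id Δ) hmor
  refine ⟨⟨hmain, hkap⟩, fun hne => ?_⟩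
  obtain ⟨g1, g2, g3, g4, g5⟩ := H399.Gen.base hI H969.Gen.fin (H364.crit H150.Gen.img)
    H383.Gen.compl (p + 1) p X Y f Δ hf hc hΔ hne _ rfl
  have hk := (hkap _ g1 g2 g3 g4 g5).2
    ⟨X, Y, inferInstance, inferInstance, inferInstance, inferInstance, f, Δ⟩ X inferInstance
    inferInstance f Δ (Relation.EqvGen.refl _) rfl
  exact (add_le_add le_rfl hk).trans hmain

end Vale.Agent.P281.H511.Gen
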